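import Vale.Agent.P231.V.FlowC

/-!
# Liouville invariance, radial integrals  (TASK)

`TI_smul`: `lintegral` of `F (c • v)` for the Haar measure (`Measure.map_addHaar_smul`, `lintegral_map_equiv`, or `setLIntegral` written with indicators and `lintegral_smul_measure`); `nrm_smul`.
`TT_flw`: time one: `TT_flip` applied to `fun x v => Φ x (-v)` and `TI_smul` with `c = -1`, valid for every radius `r ≤ D`.  For `0 < c ≤ 1`: `flw Φ c x v = flw Ψ 1 x (c • v)` with `Ψ x v = Φ x (c⁻¹ • v)` (`geo_smul`, `vel_geo_smul`),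
so two scalings and time one at radius `c D` (`lintegral_const_mul'`).  `c = 0`: `geo_zero`, `vel_geo_zero`.  General `c ≥ 0` by induction on `⌊c⌋₊` with `flw_add`, `TCont.flw`.
`TT_tav`: `ofReal (∫ c in 0..T, f c) = ∫⁻ c in Ioc 0 T, ofReal (f c)` (`ofReal_integral_eq_lintegral_ofReal`), swap with the `v`-integral (joint continuity in `(c, v)` from `tc_flow`, `TC.const_base`), rewrite with `TI_eq`, swap with the
`x`-integral (`measurable_pf_flw`, `Measurable.lintegral_prod_right'`), `TT_flw`.
`TI_radial`: write `g.ip x u v = ⟪L u, L v⟫` for a linear equivalence `L` with `|det L| = wt g x` (square root or Cholesky factor of the Gram matrix: `Matrix.posDef_iff_eq_conjTranspose_mul_self`, `Matrix.toEuclideanCLM`/`toEuclideanLin`; compare `P219.Pack.chg`),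
`lintegral_image_eq_lintegral_abs_det_fderiv_mul` or `Measure.map_linearMap_addHaar_eq_smul_addHaar`.  `model_int`: `integral_fun_norm_addHaar` for the indicator of the ball times the (bounded, a.e. continuous, nonnegative) integrand; `r ^ m (sin τ / τ) ^ m = (2D/π sin τ) ^ m` for `r > 0`.
This file holds one portion of the plan above.  Prefix helper names by `flow_hd_`.
-/

namespace Vale.Agent.P231

open scoped ContDiff Manifold ENNReal Topology
open Vale.Agent.P255 Vale.Agent.P234 Vale.Agent.P219.St Set Filter MeasureTheory Real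

variable {m : ℕ} {M : Type*} [TopologicalSpace M] [ChartedSpace (Euc (m + 1)) M]
  [IsManifold 𝓘(ℝ, Euc (m + 1)) ∞ M] [T2Space M] [CompactSpace M] [ConnectedSpace M]
  [MeasurableSpace M] [BorelSpace M] {g : Metric (Euc (m + 1)) M} {μ : Measure M} {D r : ℝ}
  {Φ : M → Euc (m + 1) → ℝ}

theorem flow_hd_bd (m k : ℕ) {τ : ℝ} (h0 : 0 ≤ τ) (h1 : τ ≤ π / 2) :
    0 ≤ mdl m k τ ∧ mdl m k τ ≤ 1 := by
  have hs : 0 ≤ sin τ := sin_nonneg_of_nonneg_of_le_pi h0 (by linarith [pi_pos])
  have hc : 0 ≤ cos τ := cos_nonneg_of_mem_Icc ⟨by linarith [pi_pos], h1⟩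
  have hq : 0 ≤ sin τ / τ := div_nonneg hs h0
  have hq1 : sin τ / τ ≤ 1 := div_le_one_of_le₀ (sin_le h0) h0
  refine ⟨mul_nonneg (pow_nonneg hq _) (pow_nonneg hc _), ?_⟩
  exact mul_le_one₀ (pow_le_one₀ hq hq1) (pow_nonneg hc _) (pow_le_one₀ hc (cos_le_one τ))

theorem flow_hd_meas (m k : ℕ) : Measurable (mdl m k) :=
  ((measurable_sin.div measurable_id).pow_const m).mul (measurable_cos.pow_const k)

theorem model_int (m k : ℕ) {D : ℝ} (hD : 0 < D) :
    ∫⁻ v in _root_.Metric.ball (0 : Euc (m + 1)) D, ENNReal.ofReal (mdl m k (π * ‖v‖ / (2 * D))) =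
      ENNReal.ofReal (modelVol m k D) := by
  have hb : ∀ v ∈ _root_.Metric.ball (0 : Euc (m + 1)) D,
      0 ≤ mdl m k (π * ‖v‖ / (2 * D)) ∧ mdl m k (π * ‖v‖ / (2 * D)) ≤ 1 := by
    intro v hv
    have hv' : ‖v‖ < D := by simpa using hv
    refine flow_hd_bd m k (by positivity) ?_
    rw [div_le_div_iff₀ (by positivity) (by norm_num)]
    nlinarith [pi_pos]
  have hm : Measurable fun v : Euc (m + 1) => mdl m k (π * ‖v‖ / (2 * D)) :=
    (flow_hd_meas m k).comp ((measurable_norm.const_mul π).div_const _)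
  have hi : IntegrableOn (fun v : Euc (m + 1) => mdl m k (π * ‖v‖ / (2 * D)))
      (_root_.Metric.ball 0 D) := by
    refine Measure.integrableOn_of_bounded (M := 1) measure_ball_lt_top.ne
      hm.aestronglyMeasurable ?_
    refine (ae_restrict_iff' measurableSet_ball).2 (Eventually.of_forall fun v hv => ?_)
    rw [Real.norm_of_nonneg (hb v hv).1]
    exact (hb v hv).2
  rw [← ofReal_integral_eq_lintegral_ofReal hi
    ((ae_restrict_iff' measurableSet_ball).2 (Eventually.of_forall fun v hv => (hb v hv).1))]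
  refine congrArg _ ?_
  have e1 : ∫ v in _root_.Metric.ball (0 : Euc (m + 1)) D, mdl m k (π * ‖v‖ / (2 * D)) =
      ∫ v : Euc (m + 1), (Iio D).indicator (fun y => mdl m k (π * y / (2 * D))) ‖v‖ := by
    rw [← integral_indicator measurableSet_ball]
    refine integral_congr_ae (Eventually.of_forall fun v => ?_)
    by_cases hv : ‖v‖ < D
    · simp [indicator, hv]
    · simp [indicator, hv]
  rw [e1, integral_fun_norm_addHaar volume
    ((Iio D).indicator (fun y => mdl m k (π * y / (2 * D)))), modelVol,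
    intervalIntegral.integral_of_le hD.le, integral_Ioc_eq_integral_Ioo]
  have e2 : ∫ y in Ioi (0 : ℝ), y ^ (Module.finrank ℝ (Euc (m + 1)) - 1) •
      (Iio D).indicator (fun y => mdl m k (π * y / (2 * D))) y =
      ∫ r in Ioo (0 : ℝ) D, (2 * D / π * sin (π * r / (2 * D))) ^ m * cos (π * r / (2 * D)) ^ k := by
    rw [← Ioi_inter_Iio, ← setIntegral_indicator measurableSet_Iio]
    refine setIntegral_congr_fun measurableSet_Ioi fun y hy => ?_
    have hy0 : 0 < y := hy
    by_cases hyD : y < D
    · simp only [indicator, mem_Iio, hyD, if_true, finrank_euclideanSpace, Fintype.card_fin,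
        Nat.add_sub_cancel, smul_eq_mul, mdl]
      rw [← mul_assoc, ← mul_pow]
      have : y * (sin (π * y / (2 * D)) / (π * y / (2 * D))) = 2 * D / π * sin (π * y / (2 * D)) := by
        field_simp
      rw [this]
    · simp [indicator, hyD]
  rw [e2]
  simp [Measure.real, mul_assoc]

end Vale.Agent.P231
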