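import Vale.Agent.P231.V.Pair

/-!
# Liouville invariance, radial integrals  (TASK)

`TI_smul`: `lintegral` of `F (c • v)` for the Haar measure (`Measure.map_addHaar_smul`, `lintegral_map_equiv`, or `setLIntegral` written with indicators and `lintegral_smul_measure`); `nrm_smul`.
`TT_flw`: time one: `TT_flip` applied to `fun x v => Φ x (-v)` and `TI_smul` with `c = -1`, valid for every radius `r ≤ D`.  For `0 < c ≤ 1`: `flw Φ c x v = flw Ψ 1 x (c • v)` with `Ψ x v = Φ x (c⁻¹ • v)` (`geo_smul`, `vel_geo_smul`),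
so two scalings and time one at radius `c D` (`lintegral_const_mul'`).  `c = 0`: `geo_zero`, `vel_geo_zero`.  General `c ≥ 0` by induction on `⌊c⌋₊` with `flw_add`, `TCont.flw`.
`TT_tav`: `ofReal (∫ c in 0..T, f c) = ∫⁻ c in Ioc 0 T, ofReal (f c)` (`ofReal_integral_eq_lintegral_ofReal`), swap with the `v`-integral (joint continuity in `(c, v)` from `tc_flow`, `TC.const_base`), rewrite with `TI_eq`, swap with the
`x`-integral (`measurable_pf_flw`, `Measurable.lintegral_prod_right'`), `TT_flw`.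
`TI_radial`: write `g.ip x u v = ⟪L u, L v⟫` for a linear equivalence `L` with `|det L| = wt g x` (square root or Cholesky factor of the Gram matrix: `Matrix.posDef_iff_eq_conjTranspose_mul_self`, `Matrix.toEuclideanCLM`/`toEuclideanLin`; compare `P219.Pack.chg`),
`lintegral_image_eq_lintegral_abs_det_fderiv_mul` or `Measure.map_linearMap_addHaar_eq_smul_addHaar`.  `model_int`: `integral_fun_norm_addHaar` for the indicator of the ball times the (bounded, a.e. continuous, nonnegative) integrand; `r ^ m (sin τ / τ) ^ m = (2D/π sin τ) ^ m` for `r > 0`.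
This file holds one portion of the plan above.  Prefix helper names by `flow_ha_`.
-/

namespace Vale.Agent.P231

open scoped ContDiff Manifold ENNReal Topology
open Vale.Agent.P255 Vale.Agent.P234 Vale.Agent.P219.St Set Filter MeasureTheory Real

variable {m : ℕ} {M : Type*} [TopologicalSpace M] [ChartedSpace (Euc (m + 1)) M]
  [IsManifold 𝓘(ℝ, Euc (m + 1)) ∞ M] [T2Space M] [CompactSpace M] [ConnectedSpace M]
  [MeasurableSpace M] [BorelSpace M] {g : Metric (Euc (m + 1)) M} {μ : Measure M} {D r : ℝ}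
  {Φ : M → Euc (m + 1) → ℝ}

theorem TI_smul (g : Metric (Euc (m + 1)) M) (r : ℝ) (Φ : M → Euc (m + 1) → ℝ) (x : M) {c : ℝ}
    (hc : c ≠ 0) : TI g r (fun x v => Φ x (c • v)) x =
      ENNReal.ofReal (|c| ^ (m + 1))⁻¹ * TI g (|c| * r) Φ x := by
  have hme : MeasurableEmbedding fun v : Euc (m + 1) => c • v :=
    (Homeomorph.smulOfNeZero c hc).measurableEmbedding
  have hc' : 0 < |c| := abs_pos.2 hc
  have hs : {v : Euc (m + 1) | nrm g x v < r} =
      (fun v : Euc (m + 1) => c • v) ⁻¹' {v | nrm g x v < |c| * r} := by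
    ext v
    simp only [mem_ofPred_eq, mem_preimage, nrm_smul]
    exact (mul_lt_mul_iff_right₀ hc').symm
  unfold TI
  rw [hs, ← hme.lintegral_map (f := fun v => ENNReal.ofReal (Φ x v * wt g x)),
    ← hme.restrict_map, Measure.map_addHaar_smul volume hc, Measure.restrict_smul,
    lintegral_smul_measure]
  simp [abs_inv, abs_pow]


theorem flow_ha_TT_smul (r : ℝ) (Φ : M → Euc (m + 1) → ℝ) {c : ℝ} (hc : c ≠ 0) :
    TT g μ r (fun x v => Φ x (c • v)) =
      ENNReal.ofReal (|c| ^ (m + 1))⁻¹ * TT g μ (|c| * r) Φ := by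
  unfold TT
  rw [← lintegral_const_mul' _ _ ENNReal.ofReal_ne_top]
  exact lintegral_congr fun x => TI_smul g r Φ x hc

theorem flow_ha_one (h : Bl g D) (hμ : RV g μ) (hr : r ≤ D) (hΦ : TCont Φ) :
    TT g μ r (flw g Φ 1) = TT g μ r Φ := by
  have h1 := TT_flip h hμ hr (hΦ.smul (-1))
  have h2 := flow_ha_TT_smul (g := g) (μ := μ) r Φ (c := -1) (by norm_num)
  simp only [abs_neg, abs_one, one_pow, inv_one, ENNReal.ofReal_one, one_mul] at h2
  rw [h2] at h1
  rw [← h1]
  refine congrArg _ ?_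
  funext x v
  simp [flw, Metric.exp]

theorem flow_ha_small (h : Bl g D) (hμ : RV g μ) (hΦ : TCont Φ) {c : ℝ} (hc : 0 ≤ c)
    (hc1 : c ≤ 1) : TT g μ D (flw g Φ c) = TT g μ D Φ := by
  rcases hc.eq_or_lt with rfl | hc0
  · refine congrArg _ ?_
    funext x v
    simp [flw, Metric.geo_zero, vel_geo_zero]
  have hne : c ≠ 0 := hc0.ne'
  have e1 : flw g Φ c = fun x v => flw g (fun x v => Φ x (c⁻¹ • v)) 1 x (c • v) := by
    funext x v
    simp only [flw, Metric.geo_smul, vel_geo_smul, mul_one, smul_smul, inv_mul_cancel₀ hne,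
      one_smul]
  have hr : |c| * D ≤ D := by
    rw [abs_of_pos hc0]
    nlinarith [h.pos]
  rw [e1, flow_ha_TT_smul D _ hne, flow_ha_one h hμ hr (hΦ.smul c⁻¹),
    flow_ha_TT_smul _ _ (inv_ne_zero hne), ← mul_assoc, ← mul_assoc,
    ← ENNReal.ofReal_mul (by positivity), abs_inv, inv_mul_cancel₀ (abs_pos.2 hne).ne', one_mul,
    inv_pow, inv_inv, inv_mul_cancel₀ (by positivity), ENNReal.ofReal_one, one_mul]

theorem TT_flw (h : Bl g D) (hμ : RV g μ) (hΦ : TCont Φ) {c : ℝ} (hc : 0 ≤ c) :
    TT g μ D (flw g Φ c) = TT g μ D Φ := by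
  have key : ∀ n : ℕ, ∀ c : ℝ, 0 ≤ c → c ≤ n + 1 → TT g μ D (flw g Φ c) = TT g μ D Φ := by
    intro n
    induction n with
    | zero => exact fun c hc hc1 => flow_ha_small h hμ hΦ hc (by simpa using hc1)
    | succ n ih =>
      intro c hc hc1
      rcases le_total c 1 with h1 | h1
      · exact flow_ha_small h hμ hΦ hc h1
      · have e : flw g Φ c = flw g (flw g Φ (c - 1)) 1 := by
          rw [flw_add]
          congr 1
          ring
        rw [e, flow_ha_one h hμ le_rfl (hΦ.flw g _)]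
        refine ih _ (by linarith) ?_
        push_cast at hc1
        linarith
  exact key ⌈c⌉₊ c hc (by linarith [Nat.le_ceil c])

end Vale.Agent.P231
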