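import Vale.Agent.P231.V.FlowA

/-!
# Liouville invariance, radial integrals  (TASK)

`TI_smul`: `lintegral` of `F (c • v)` for the Haar measure (`Measure.map_addHaar_smul`, `lintegral_map_equiv`, or `setLIntegral` written with indicators and `lintegral_smul_measure`); `nrm_smul`.
`TT_flw`: time one: `TT_flip` applied to `fun x v => Φ x (-v)` and `TI_smul` with `c = -1`, valid for every radius `r ≤ D`.  For `0 < c ≤ 1`: `flw Φ c x v = flw Ψ 1 x (c • v)` with `Ψ x v = Φ x (c⁻¹ • v)` (`geo_smul`, `vel_geo_smul`),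
so two scalings and time one at radius `c D` (`lintegral_const_mul'`).  `c = 0`: `geo_zero`, `vel_geo_zero`.  General `c ≥ 0` by induction on `⌊c⌋₊` with `flw_add`, `TCont.flw`.
`TT_tav`: `ofReal (∫ c in 0..T, f c) = ∫⁻ c in Ioc 0 T, ofReal (f c)` (`ofReal_integral_eq_lintegral_ofReal`), swap with the `v`-integral (joint continuity in `(c, v)` from `tc_flow`, `TC.const_base`), rewrite with `TI_eq`, swap with the
`x`-integral (`measurable_pf_flw`, `Measurable.lintegral_prod_right'`), `TT_flw`.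
`TI_radial`: write `g.ip x u v = ⟪L u, L v⟫` for a linear equivalence `L` with `|det L| = wt g x` (square root or Cholesky factor of the Gram matrix: `Matrix.posDef_iff_eq_conjTranspose_mul_self`, `Matrix.toEuclideanCLM`/`toEuclideanLin`; compare `P219.Pack.chg`),
`lintegral_image_eq_lintegral_abs_det_fderiv_mul` or `Measure.map_linearMap_addHaar_eq_smul_addHaar`.  `model_int`: `integral_fun_norm_addHaar` for the indicator of the ball times the (bounded, a.e. continuous, nonnegative) integrand; `r ^ m (sin τ / τ) ^ m = (2D/π sin τ) ^ m` for `r > 0`.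
This file holds one portion of the plan above.  Prefix helper names by `flow_hb_`.
-/

namespace Vale.Agent.P231

open scoped ContDiff Manifold ENNReal Topology
open Vale.Agent.P255 Vale.Agent.P234 Vale.Agent.P219.St Set Filter MeasureTheory Real

variable {m : ℕ} {M : Type*} [TopologicalSpace M] [ChartedSpace (Euc (m + 1)) M]
  [IsManifold 𝓘(ℝ, Euc (m + 1)) ∞ M] [T2Space M] [CompactSpace M] [ConnectedSpace M]
  [MeasurableSpace M] [BorelSpace M] {g : Metric (Euc (m + 1)) M} {μ : Measure M} {D r : ℝ}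
  {Φ : M → Euc (m + 1) → ℝ}

theorem flow_hb_cont (g : Metric (Euc (m + 1)) M) (hΦ : TCont Φ) (x : M) :
    Continuous fun z : Euc (m + 1) × ℝ => flw g Φ z.2 x z.1 := by
  refine continuous_iff_continuousAt.2 fun z => ?_
  exact hΦ.tendsto (tc_flow g (TC.const_base.2 continuous_fst.continuousAt.tendsto)
    continuous_snd.continuousAt.tendsto)

theorem flow_hb_TI (hΦ : TCont Φ) (h0 : ∀ x v, 0 ≤ Φ x v) {T : ℝ} (hT : 0 ≤ T) (x : M) :
    TI g D (fun x v => ∫ c in (0 : ℝ)..T, flw g Φ c x v) x =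
      ∫⁻ c in Ioc (0 : ℝ) T, TI g D (flw g Φ c) x := by
  have hc := flow_hb_cont g hΦ x
  unfold TI
  rw [lintegral_lintegral_swap (f := fun c v => ENNReal.ofReal (flw g Φ c x v * wt g x))
    ((ENNReal.continuous_ofReal.comp ((hc.comp continuous_swap).mul
      continuous_const)).measurable.aemeasurable)]
  refine lintegral_congr fun v => ?_
  have hv : Continuous fun c : ℝ => flw g Φ c x v * wt g x :=
    (hc.comp (Continuous.prodMk_right v)).mul continuous_const
  rw [← intervalIntegral.integral_mul_const, intervalIntegral.integral_of_le hT,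
    ofReal_integral_eq_lintegral_ofReal (hv.integrableOn_Icc.mono_set Ioc_subset_Icc_self)
      (Eventually.of_forall fun c => mul_nonneg (h0 _ _) (wt_pos g x).le)]

theorem TT_tav (h : Bl g D) (hμ : RV g μ) (hΦ : TCont Φ) (h0 : ∀ x v, 0 ≤ Φ x v) {T : ℝ}
    (hT : 0 ≤ T) : TT g μ D (fun x v => ∫ c in (0 : ℝ)..T, flw g Φ c x v) ≤
      ENNReal.ofReal T * TT g μ D Φ := by
  haveI := hμ.sfin
  have hm := measurable_pf_flw h le_rfl hΦ
  have e1 : TT g μ D (fun x v => ∫ c in (0 : ℝ)..T, flw g Φ c x v) =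
      ∫⁻ x, ∫⁻ c in Ioc (0 : ℝ) T, ∫⁻ y, pf g D (flw g Φ c) (x, y) ∂μ ∂volume ∂μ := by
    refine lintegral_congr fun x => ?_
    rw [flow_hb_TI hΦ h0 hT x]
    exact lintegral_congr fun c => TI_eq h hμ le_rfl (hΦ.flw g c) x
  have hm2 : Measurable fun z : M × ℝ => ∫⁻ y, pf g D (flw g Φ z.2) (z.1, y) ∂μ :=
    Measurable.lintegral_prod_right' (f := fun w : (M × ℝ) × M => pf g D (flw g Φ w.1.2) (w.1.1, w.2))
      (hm.comp (measurable_fst.snd.prodMk (measurable_fst.fst.prodMk measurable_snd)))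
  rw [e1, lintegral_lintegral_swap (f := fun x c => ∫⁻ y, pf g D (flw g Φ c) (x, y) ∂μ)
    hm2.aemeasurable]
  have e2 : ∀ c ∈ Ioc (0 : ℝ) T, ∫⁻ x, ∫⁻ y, pf g D (flw g Φ c) (x, y) ∂μ ∂μ = TT g μ D Φ := by
    intro c hc
    rw [← TT_flw h hμ hΦ hc.1.le]
    exact lintegral_congr fun x => (TI_eq h hμ le_rfl (hΦ.flw g c) x).symm
  rw [setLIntegral_congr_fun measurableSet_Ioc e2, setLIntegral_const, Real.volume_Ioc, sub_zero,
    mul_comm]

end Vale.Agent.P231
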