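import Vale.Agent.P231.V.FlowB

/-!
# Liouville invariance, radial integrals  (TASK)

`TI_smul`: `lintegral` of `F (c • v)` for the Haar measure (`Measure.map_addHaar_smul`, `lintegral_map_equiv`, or `setLIntegral` written with indicators and `lintegral_smul_measure`); `nrm_smul`.
`TT_flw`: time one: `TT_flip` applied to `fun x v => Φ x (-v)` and `TI_smul` with `c = -1`, valid for every radius `r ≤ D`.  For `0 < c ≤ 1`: `flw Φ c x v = flw Ψ 1 x (c • v)` with `Ψ x v = Φ x (c⁻¹ • v)` (`geo_smul`, `vel_geo_smul`),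
so two scalings and time one at radius `c D` (`lintegral_const_mul'`).  `c = 0`: `geo_zero`, `vel_geo_zero`.  General `c ≥ 0` by induction on `⌊c⌋₊` with `flw_add`, `TCont.flw`.
`TT_tav`: `ofReal (∫ c in 0..T, f c) = ∫⁻ c in Ioc 0 T, ofReal (f c)` (`ofReal_integral_eq_lintegral_ofReal`), swap with the `v`-integral (joint continuity in `(c, v)` from `tc_flow`, `TC.const_base`), rewrite with `TI_eq`, swap with the
`x`-integral (`measurable_pf_flw`, `Measurable.lintegral_prod_right'`), `TT_flw`.
`TI_radial`: write `g.ip x u v = ⟪L u, L v⟫` for a linear equivalence `L` with `|det L| = wt g x` (square root or Cholesky factor of the Gram matrix: `Matrix.posDef_iff_eq_conjTranspose_mul_self`, `Matrix.toEuclideanCLM`/`toEuclideanLin`; compare `P219.Pack.chg`),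
`lintegral_image_eq_lintegral_abs_det_fderiv_mul` or `Measure.map_linearMap_addHaar_eq_smul_addHaar`.  `model_int`: `integral_fun_norm_addHaar` for the indicator of the ball times the (bounded, a.e. continuous, nonnegative) integrand; `r ^ m (sin τ / τ) ^ m = (2D/π sin τ) ^ m` for `r > 0`.
This file holds one portion of the plan above.  Prefix helper names by `flow_hc_`.
-/

namespace Vale.Agent.P231

open scoped ContDiff Manifold ENNReal Topology
open Vale.Agent.P255 Vale.Agent.P234 Vale.Agent.P219.St Set Filter MeasureTheory Real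

variable {m : ℕ} {M : Type*} [TopologicalSpace M] [ChartedSpace (Euc (m + 1)) M]
  [IsManifold 𝓘(ℝ, Euc (m + 1)) ∞ M] [T2Space M] [CompactSpace M] [ConnectedSpace M]
  [MeasurableSpace M] [BorelSpace M] {g : Metric (Euc (m + 1)) M} {μ : Measure M} {D r : ℝ}
  {Φ : M → Euc (m + 1) → ℝ}

open scoped MatrixOrder in
theorem flow_hc_fac (g : Metric (Euc (m + 1)) M) (x : M) :
    ∃ B : Matrix (Fin (m + 1)) (Fin (m + 1)) ℝ, |B.det| = wt g x ∧
      ∀ v : Euc (m + 1), nrm g x v = ‖Matrix.toLpLin 2 2 B v‖ := by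
  set G : Matrix (Fin (m + 1)) (Fin (m + 1)) ℝ := Matrix.of fun i j =>
    g.ip x (EuclideanSpace.single i 1) (EuclideanSpace.single j 1) with hG
  have hq : ∀ v : Euc (m + 1), g.ip x v v = v.ofLp ⬝ᵥ (G.mulVec v.ofLp) := by
    intro v
    have hv : v = ∑ i, v i • (EuclideanSpace.single i 1 : Euc (m + 1)) := by
      ext j
      simp [Pi.single_apply]
    conv_lhs => rw [hv]
    simp only [map_sum, map_smul, ContinuousLinearMap.sum_apply, ContinuousLinearMap.smul_apply,
      smul_eq_mul, dotProduct, Matrix.mulVec, hG, Matrix.of_apply, Finset.mul_sum]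
    rw [Finset.sum_comm]
    exact Finset.sum_congr rfl fun i _ => Finset.sum_congr rfl fun j _ => by ring
  have hpsd : G.PosSemidef := by
    refine Matrix.PosSemidef.of_dotProduct_mulVec_nonneg ?_ fun z => ?_
    · ext i j
      simp [hG, ip_symm g x (EuclideanSpace.single j 1)]
    · have := ip_nonneg g x (WithLp.toLp 2 z)
      rw [hq] at this
      simpa using this
  obtain ⟨B, hB⟩ := CStarAlgebra.nonneg_iff_eq_star_mul_self.mp hpsd.nonneg
  refine ⟨B, ?_, fun v => ?_⟩
  · have : wt g x = √(G.det) := rfl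
    rw [this, hB, Matrix.det_mul, Matrix.star_eq_conjTranspose, Matrix.det_conjTranspose,
      star_trivial, Real.sqrt_mul_self_eq_abs]
  · rw [← Real.sqrt_sq (nrm_nonneg g x v), nrm_sq, hq, hB, EuclideanSpace.norm_eq,
      Matrix.star_eq_conjTranspose, Matrix.conjTranspose_eq_transpose_of_trivial,
      ← Matrix.mulVec_mulVec, Matrix.dotProduct_mulVec, Matrix.vecMul_transpose]
    refine congrArg _ ?_
    simp [dotProduct, sq]

theorem TI_radial (g : Metric (Euc (m + 1)) M) (r : ℝ) (f : ℝ → ℝ) (x : M) :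
    TI g r (fun x v => f (nrm g x v)) x =
      ∫⁻ v in _root_.Metric.ball (0 : Euc (m + 1)) r, ENNReal.ofReal (f ‖v‖) := by
  obtain ⟨B, hB, hn⟩ := flow_hc_fac g x
  have hw := wt_pos g x
  have hd : LinearMap.det (Matrix.toLpLin 2 2 B : Euc (m + 1) →ₗ[ℝ] Euc (m + 1)) = B.det :=
    LinearMap.det_toLpLin 2 B
  have hd0 : LinearMap.det (Matrix.toLpLin 2 2 B : Euc (m + 1) →ₗ[ℝ] Euc (m + 1)) ≠ 0 := by
    rw [hd, ← abs_pos, hB]
    exact hw
  set L : Euc (m + 1) →ₗ[ℝ] Euc (m + 1) := Matrix.toLpLin 2 2 B with hL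
  have hme : MeasurableEmbedding L :=
    (LinearMap.equivOfDetNeZero L hd0).toContinuousLinearEquiv.toHomeomorph.measurableEmbedding
  have hs : {v : Euc (m + 1) | nrm g x v < r} = L ⁻¹' _root_.Metric.ball 0 r := by
    ext v
    simp [hn]
  unfold TI
  simp only [hn]
  rw [show {v : Euc (m + 1) | ‖L v‖ < r} = L ⁻¹' _root_.Metric.ball 0 r by
      ext v
      simp,
    ← hme.lintegral_map (f := fun v => ENNReal.ofReal (f ‖v‖ * wt g x)), ← hme.restrict_map,
    Measure.map_linearMap_addHaar_eq_smul_addHaar volume hd0, Measure.restrict_smul,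
    lintegral_smul_measure, smul_eq_mul, ← lintegral_const_mul' _ _ ENNReal.ofReal_ne_top]
  refine lintegral_congr fun v => ?_
  rw [← ENNReal.ofReal_mul (abs_nonneg _), hd, abs_inv, hB]
  refine congrArg _ ?_
  field_simp

end Vale.Agent.P231
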