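import Vale.Agent.P231.V.MainB

/-!
# The volume inequality and its equality case  (TASK)

`τ x v = π nrm v / (2 D)`, `cut T τ = max 0 (τ - π / T)`, so that `cut T τ / τ = (1 - π / (τ T))₊`.  `jb x v = ∫ s in 0..π, flw jac (s / τ) x v` equals `avJ x (τ⁻¹ • v) τ` for `v ≠ 0` (`jb_eq`: `geo_smul`, `vel_geo_smul`).
`tcont_cut`: near `v₀` with `τ < π / T` the function vanishes; otherwise `τ₀ > 0` and use `joint_int` with `tc_flow`, `tcont_jac`, `TC.nrm`.  `joint_int`: uniform convergence on `[0, π]` by an ultrafilter argument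
(choose bad points `s i`, pass to an ultrafilter and a limit point), then `intervalIntegral.norm_integral_le_of_norm_le_const`.
`tav_ge`: `f s = flw jac (s / τ) x v` is continuous, nonnegative, `π`-periodic (`Per` for `τ⁻¹ • v`; the velocity is periodic too), `∫ c in 0..T, flw jac c = τ⁻¹ ∫ s in 0..τ T, f s ≥ τ⁻¹ ⌊τ T / π⌋ jb` (`Function.Periodic.intervalIntegral_add_zsmul_eq`).
Hence `TT (Φ_T) ≤ TT jac ≤ μ²` for `Φ_T = cut T τ / τ * jb / π` (`TT_tav`, `lintegral_const_mul'`), and `Φ_T ≥ m_T = cut T τ / τ * mdl τ` on the ball (`ray_ge`).  `TT m_T = μ univ * I_T` (`TI_radial`), `⨆ T : ℕ, I_T = ofReal modelVol`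
(`lintegral_iSup`, `model_int`, `{0}` is null).  `vol_ge`: `μ univ ≠ 0` (`openPos`), cancel.  `vol_eq`: `Δ = Φ_{T₀} - m_{T₀}` is `TCont`, `Φ_T ≥ m_T + Δ` for `T ≥ T₀`, `le_lintegral_add` twice, so `μ I_T + TT Δ ≤ μ² ≤ μ V < ∞`; let `T → ∞`; `TT_pos`.
This file holds one portion of the plan above.  Prefix helper names by `vol_hc_`.
-/

namespace Vale.Agent.P231

open scoped ContDiff Manifold ENNReal Topology
open Vale.Agent.P255 Vale.Agent.P234 Vale.Agent.P219.St Set Filter MeasureTheory Real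

variable {m k : ℕ} {M : Type*} [TopologicalSpace M] [ChartedSpace (Euc (m + 1)) M]
  [IsManifold 𝓘(ℝ, Euc (m + 1)) ∞ M] [T2Space M] [CompactSpace M] [ConnectedSpace M]
  [MeasurableSpace M] [BorelSpace M] {g : Metric (Euc (m + 1)) M} {μ : Measure M} {D : ℝ}

/-- The truncated model integrand. -/
noncomputable def vol_hc_f (m k : ℕ) (T τ : ℝ) : ℝ := max 0 (τ - π / T) / τ * mdl m k τ

/-- The truncated average. -/
noncomputable def vol_hc_F (g : Metric (Euc (m + 1)) M) (D T : ℝ) (x : M) (v : Euc (m + 1)) : ℝ :=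
  max 0 (tau g D x v - π / T) / tau g D x v * (jb g D x v / π)

theorem vol_hc_cont (m k : ℕ) {T : ℝ} (hT : 0 < T) : Continuous (vol_hc_f m k T) := by
  have hπ : 0 < π / T := div_pos pi_pos hT
  refine continuous_iff_continuousAt.2 fun τ => ?_
  rcases lt_or_ge τ (π / T) with h1 | h1
  · refine (continuousAt_const (y := (0 : ℝ))).congr ?_
    filter_upwards [gt_mem_nhds h1] with s hs
    rw [vol_hc_f, max_eq_left (by linarith), zero_div, zero_mul]
  · have h0 : τ ≠ 0 := (hπ.trans_le h1).ne'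
    exact ((continuousAt_const.max (continuousAt_id.sub continuousAt_const)).div
      continuousAt_id h0).mul (((continuous_sin.continuousAt.div continuousAt_id h0).pow m).mul
        (continuous_cos.continuousAt.pow k))

theorem vol_hc_mono {Φ Ψ : M → Euc (m + 1) → ℝ} (h : ∀ x v, nrm g x v < D → Φ x v ≤ Ψ x v) :
    TT g μ D Φ ≤ TT g μ D Ψ := by
  refine lintegral_mono fun x => setLIntegral_mono' (pair_ha_open g x D).measurableSet fun v hv => ?_
  exact ENNReal.ofReal_le_ofReal (mul_le_mul_of_nonneg_right (h x v hv) (wt_pos g x).le)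

theorem vol_hc_mul (Φ : M → Euc (m + 1) → ℝ) {c : ℝ} (hc : 0 ≤ c) :
    TT g μ D (fun x v => c * Φ x v) = ENNReal.ofReal c * TT g μ D Φ := by
  unfold TT TI
  rw [← lintegral_const_mul' _ _ ENNReal.ofReal_ne_top]
  refine lintegral_congr fun x => ?_
  rw [← lintegral_const_mul' _ _ ENNReal.ofReal_ne_top]
  refine lintegral_congr fun v => ?_
  rw [← ENNReal.ofReal_mul hc, mul_assoc]

theorem vol_hc_add {Φ Ψ : M → Euc (m + 1) → ℝ} (h1 : ∀ x v, nrm g x v < D → 0 ≤ Φ x v)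
    (h2 : ∀ x v, nrm g x v < D → 0 ≤ Ψ x v) :
    TT g μ D Φ + TT g μ D Ψ ≤ TT g μ D fun x v => Φ x v + Ψ x v := by
  refine (le_lintegral_add _ _).trans (lintegral_mono fun x => ?_)
  refine (le_lintegral_add _ _).trans
    (setLIntegral_mono' (pair_ha_open g x D).measurableSet fun v hv => ?_)
  rw [add_mul, ENNReal.ofReal_add (mul_nonneg (h1 x v hv) (wt_pos g x).le)
    (mul_nonneg (h2 x v hv) (wt_pos g x).le)]

theorem vol_hc_le (h : Bl g D) (hP : Per g D) (hμ : RV g μ) {T : ℝ} (hT : 0 < T) :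
    TT g μ D (vol_hc_F g D T) ≤ μ univ * μ univ := by
  have h1 : ENNReal.ofReal T * TT g μ D (vol_hc_F g D T) ≤ ENNReal.ofReal T * (μ univ * μ univ) := by
    rw [← vol_hc_mul _ hT.le]
    refine (vol_hc_mono fun x v _ => tav_ge h.pos hP hT x v).trans ?_
    refine (TT_tav h hμ (tcont_jac g) (jac_nonneg g) hT.le).trans ?_
    gcongr
    exact TT_jac h hμ
  exact (ENNReal.mul_le_mul_iff_right (by simpa using hT) ENNReal.ofReal_ne_top).1 h1

theorem vol_hc_rng (hD : 0 < D) {r : ℝ} (h0 : 0 ≤ r) (hr : r < D) :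
    0 ≤ π * r / (2 * D) ∧ π * r / (2 * D) < π / 2 := by
  refine ⟨by positivity, ?_⟩
  rw [div_lt_div_iff₀ (by positivity) (by norm_num)]
  nlinarith [pi_pos]

theorem vol_hc_gap (h : Bl g D) (hP : Per g D) (hk : Nul g D k) {x : M} {v : Euc (m + 1)}
    (hv : nrm g x v < D) (h0 : 0 < tau g D x v) : mdl m k (tau g D x v) ≤ jb g D x v / π := by
  have hn := vol_hb_nrm h.pos h0
  have h1 := (jb_eq h.pos hn h0).2
  rw [smul_smul, mul_inv_cancel₀ h0.ne', one_smul] at h1
  rw [h1, le_div_iff₀ pi_pos, mul_comm]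
  exact ray_ge h hP (by simp) hk hn ⟨h0, (vol_hc_rng h.pos (nrm_nonneg g x v) hv).2⟩

theorem vol_hc_cut {τ T T' : ℝ} (hτ : 0 ≤ τ) (hT : 0 < T) (hTT : T ≤ T') :
    0 ≤ max 0 (τ - π / T) / τ ∧ max 0 (τ - π / T) / τ ≤ max 0 (τ - π / T') / τ := by
  refine ⟨div_nonneg (le_max_left _ _) hτ, div_le_div_of_nonneg_right (max_le_max le_rfl ?_) hτ⟩
  have : π / T' ≤ π / T := div_le_div_of_nonneg_left pi_pos.le hT hTT
  linarith

theorem vol_hc_diff (h : Bl g D) (hP : Per g D) (hk : Nul g D k) {x : M} {v : Euc (m + 1)}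
    (hv : nrm g x v < D) {T T' : ℝ} (hT : 0 < T) (hTT : T ≤ T') :
    0 ≤ vol_hc_F g D T x v - vol_hc_f m k T (tau g D x v) ∧
      vol_hc_f m k T' (tau g D x v) + (vol_hc_F g D T x v - vol_hc_f m k T (tau g D x v)) ≤
        vol_hc_F g D T' x v := by
  have h0 : 0 ≤ tau g D x v := (vol_hc_rng h.pos (nrm_nonneg g x v) hv).1
  unfold vol_hc_F vol_hc_f
  rcases h0.eq_or_lt with h1 | h1
  · simp [← h1]
  · have h2 := vol_hc_gap h hP hk hv h1
    obtain ⟨h3, h4⟩ := vol_hc_cut h0 hT hTT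
    constructor <;> nlinarith

theorem vol_hc_nn (hD : 0 < D) {r T : ℝ} (h0 : 0 ≤ r) (hr : r < D) :
    0 ≤ vol_hc_f m k T (π * r / (2 * D)) :=
  mul_nonneg (div_nonneg (le_max_left _ _) (vol_hc_rng hD h0 hr).1)
    (flow_hd_bd m k (vol_hc_rng hD h0 hr).1 (vol_hc_rng hD h0 hr).2.le).1

/-- The truncated model volume. -/
noncomputable def vol_hc_I (m k : ℕ) (D T : ℝ) : ℝ≥0∞ :=
  ∫⁻ v in _root_.Metric.ball (0 : Euc (m + 1)) D,
    ENNReal.ofReal (vol_hc_f m k T (π * ‖v‖ / (2 * D)))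

theorem vol_hc_TT (T : ℝ) : TT g μ D (fun x v => vol_hc_f m k T (tau g D x v)) =
    μ univ * vol_hc_I m k D T := by
  have e : ∀ x, TI g D (fun x v => vol_hc_f m k T (tau g D x v)) x = vol_hc_I m k D T := fun x =>
    TI_radial g D (fun r => vol_hc_f m k T (π * r / (2 * D))) x
  unfold TT
  simp only [e]
  rw [lintegral_const, mul_comm]

theorem vol_hc_lim (m k : ℕ) (hD : 0 < D) : Tendsto (fun n : ℕ => vol_hc_I m k D (n + 1)) atTop
    (𝓝 (ENNReal.ofReal (modelVol m k D))) := by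
  rw [← model_int m k hD]
  have hp : ∀ n : ℕ, (0 : ℝ) < n + 1 := fun n => by positivity
  refine lintegral_tendsto_of_tendsto_of_monotone (fun n => ?_) ?_ ?_
  · exact (ENNReal.continuous_ofReal.comp ((vol_hc_cont m k (hp n)).comp
      ((continuous_norm.const_mul π).div_const _))).measurable.aemeasurable
  · refine (ae_restrict_iff' measurableSet_ball).2 (Eventually.of_forall fun v hv a b hab => ?_)
    have hv' : ‖v‖ < D := by simpa using hv
    obtain ⟨h1, h2⟩ := vol_hc_rng hD (norm_nonneg v) hv'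
    refine ENNReal.ofReal_le_ofReal (mul_le_mul_of_nonneg_right
      (vol_hc_cut h1 (hp a) ?_).2 (flow_hd_bd m k h1 h2.le).1)
    exact_mod_cast Nat.succ_le_succ hab
  · refine ae_restrict_of_ae ?_
    have h0 : ∀ᵐ v : Euc (m + 1), v ≠ 0 := by
      simp [ae_iff]
    filter_upwards [h0] with v hv
    have hτ : 0 < π * ‖v‖ / (2 * D) := by
      have := norm_pos_iff.2 hv
      positivity
    refine (ENNReal.continuous_ofReal.tendsto _).comp ?_
    have t1 : Tendsto (fun n : ℕ => π / ((n : ℝ) + 1)) atTop (𝓝 0) :=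
      tendsto_const_nhds.div_atTop (tendsto_natCast_atTop_atTop.atTop_add tendsto_const_nhds)
    have t2 := (((tendsto_const_nhds (x := (0 : ℝ))).max
      (t1.const_sub (π * ‖v‖ / (2 * D)))).div_const (π * ‖v‖ / (2 * D))).mul_const
        (mdl m k (π * ‖v‖ / (2 * D)))
    rw [sub_zero, max_eq_right hτ.le, div_self hτ.ne', one_mul] at t2
    exact t2

theorem vol_ge (h : Bl g D) (hP : Per g D) (hk : Nul g D k) (hμ : RV g μ) :
    ENNReal.ofReal (modelVol m k D) ≤ μ univ := by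
  rcases eq_or_ne (μ univ) ⊤ with ht | ht
  · rw [ht]
    exact le_top
  haveI := hμ.openPos
  have h0 : μ univ ≠ 0 := (isOpen_univ.measure_pos μ univ_nonempty).ne'
  refine le_of_tendsto' (vol_hc_lim m k h.pos) fun n => ?_
  have hp : (0 : ℝ) < n + 1 := by positivity
  refine (ENNReal.mul_le_mul_iff_right h0 ht).1 ?_
  rw [← vol_hc_TT (g := g)]
  refine (vol_hc_mono fun x v hv => ?_).trans (vol_hc_le h hP hμ hp)
  have := (vol_hc_diff h hP hk hv hp le_rfl).1
  linarith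

theorem vol_eq (h : Bl g D) (hP : Per g D) (hk : Nul g D k) (hμ : RV g μ)
    (hle : μ univ ≤ ENNReal.ofReal (modelVol m k D)) (x : M) (v : Euc (m + 1))
    (hv : nrm g x v = 2 * D / π) (τ : ℝ) (hτ : τ ∈ Ioo 0 (π / 2)) :
    avJ g x v τ ≤ π * mdl m k τ := by
  by_contra hn
  push Not at hn
  have ht : μ univ ≠ ⊤ := ne_top_of_le_ne_top ENNReal.ofReal_ne_top hle
  obtain ⟨N, hN⟩ := exists_nat_gt (π / τ)
  have hp : (0 : ℝ) < N + 1 := by positivity
  have hN' : π / ((N : ℝ) + 1) < τ := by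
    rw [div_lt_iff₀ hp]
    rw [div_lt_iff₀ hτ.1] at hN
    nlinarith [hτ.1]
  have hc : TCont fun x v => vol_hc_F g D (N + 1) x v - vol_hc_f m k (N + 1) (tau g D x v) :=
    fun x₀ u₀ l hl => (tcont_cut h.pos hp x₀ u₀ l hl).sub
      (((vol_hc_cont m k hp).tendsto _).comp (vol_ha_tau g D x₀ u₀ l hl))
  obtain ⟨e1, e2⟩ := jb_eq h.pos hv hτ.1
  have hw : nrm g x (τ • v) < D := by
    rw [nrm_smul, hv, abs_of_pos hτ.1, ← mul_div_assoc, div_lt_iff₀ pi_pos]
    nlinarith [hτ.2, h.pos]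
  have hpos := TT_pos h hμ hc hw (by
    unfold vol_hc_F vol_hc_f
    rw [e1, e2, max_eq_right (by linarith), ← mul_sub]
    refine mul_pos (div_pos (by linarith) hτ.1) ?_
    rw [sub_pos, lt_div_iff₀ pi_pos]
    linarith)
  have hb : ∀ᶠ n : ℕ in atTop, μ univ * vol_hc_I m k D (n + 1) + TT g μ D
      (fun x v => vol_hc_F g D (N + 1) x v - vol_hc_f m k (N + 1) (tau g D x v)) ≤
      μ univ * ENNReal.ofReal (modelVol m k D) := by
    filter_upwards [eventually_ge_atTop N] with n hn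
    have hnn : (N : ℝ) + 1 ≤ n + 1 := by exact_mod_cast Nat.succ_le_succ hn
    rw [← vol_hc_TT (g := g)]
    refine (vol_hc_add (fun x v hv => vol_hc_nn h.pos (nrm_nonneg g x v) hv)
      fun x v hv => (vol_hc_diff h hP hk hv hp hnn).1).trans ?_
    refine (vol_hc_mono fun x v hv => (vol_hc_diff h hP hk hv hp hnn).2).trans ?_
    refine (vol_hc_le h hP hμ (hp.trans_le hnn)).trans ?_
    gcongr
  have hl := le_of_tendsto ((ENNReal.Tendsto.const_mul (vol_hc_lim m k h.pos)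
    (Or.inr ht)).add tendsto_const_nhds) hb
  exact absurd hl (not_le.2 (ENNReal.lt_add_right
    (ENNReal.mul_ne_top ht ENNReal.ofReal_ne_top) hpos.ne'))

end Vale.Agent.P231
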