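import Vale.Agent.P231.V.Flow
import Vale.Agent.P231.G.Ray

/-!
# The volume inequality and its equality case  (TASK)

`τ x v = π nrm v / (2 D)`, `cut T τ = max 0 (τ - π / T)`, so that `cut T τ / τ = (1 - π / (τ T))₊`.  `jb x v = ∫ s in 0..π, flw jac (s / τ) x v` equals `avJ x (τ⁻¹ • v) τ` for `v ≠ 0` (`jb_eq`: `geo_smul`, `vel_geo_smul`).
`tcont_cut`: near `v₀` with `τ < π / T` the function vanishes; otherwise `τ₀ > 0` and use `joint_int` with `tc_flow`, `tcont_jac`, `TC.nrm`.  `joint_int`: uniform convergence on `[0, π]` by an ultrafilter argument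
(choose bad points `s i`, pass to an ultrafilter and a limit point), then `intervalIntegral.norm_integral_le_of_norm_le_const`.
`tav_ge`: `f s = flw jac (s / τ) x v` is continuous, nonnegative, `π`-periodic (`Per` for `τ⁻¹ • v`; the velocity is periodic too), `∫ c in 0..T, flw jac c = τ⁻¹ ∫ s in 0..τ T, f s ≥ τ⁻¹ ⌊τ T / π⌋ jb` (`Function.Periodic.intervalIntegral_add_zsmul_eq`).
Hence `TT (Φ_T) ≤ TT jac ≤ μ²` for `Φ_T = cut T τ / τ * jb / π` (`TT_tav`, `lintegral_const_mul'`), and `Φ_T ≥ m_T = cut T τ / τ * mdl τ` on the ball (`ray_ge`).  `TT m_T = μ univ * I_T` (`TI_radial`), `⨆ T : ℕ, I_T = ofReal modelVol`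
(`lintegral_iSup`, `model_int`, `{0}` is null).  `vol_ge`: `μ univ ≠ 0` (`openPos`), cancel.  `vol_eq`: `Δ = Φ_{T₀} - m_{T₀}` is `TCont`, `Φ_T ≥ m_T + Δ` for `T ≥ T₀`, `le_lintegral_add` twice, so `μ I_T + TT Δ ≤ μ² ≤ μ V < ∞`; let `T → ∞`; `TT_pos`.
This file holds one portion of the plan above.  Prefix helper names by `vol_ha_`.
-/

namespace Vale.Agent.P231

open scoped ContDiff Manifold ENNReal Topology
open Vale.Agent.P255 Vale.Agent.P234 Vale.Agent.P219.St Set Filter MeasureTheory Real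

variable {m k : ℕ} {M : Type*} [TopologicalSpace M] [ChartedSpace (Euc (m + 1)) M]
  [IsManifold 𝓘(ℝ, Euc (m + 1)) ∞ M] [T2Space M] [CompactSpace M] [ConnectedSpace M]
  [MeasurableSpace M] [BorelSpace M] {g : Metric (Euc (m + 1)) M} {μ : Measure M} {D : ℝ}

theorem joint_int {ι : Type*} {l : Filter ι} {F : ι → ℝ → ℝ} {F₀ : ℝ → ℝ} {a b : ℝ}
    (hF : ∀ i, Continuous (F i)) (h0 : Continuous F₀)
    (h : ∀ (l' : Filter ι) (s : ι → ℝ) (s₀ : ℝ), l' ≤ l → Tendsto s l' (𝓝 s₀) →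
      Tendsto (fun i => F i (s i)) l' (𝓝 (F₀ s₀))) :
    Tendsto (fun i => ∫ s in a..b, F i s) l (𝓝 (∫ s in a..b, F₀ s)) := by
  have key : ∀ ε > 0, ∀ᶠ i in l, ∀ s ∈ uIcc a b, ‖F i s - F₀ s‖ ≤ ε := by
    intro ε hε
    by_contra hn
    have hfr : ∃ᶠ i in l, ∃ s ∈ uIcc a b, ε < ‖F i s - F₀ s‖ := by
      refine (not_eventually.1 hn).mono fun i hi => ?_
      push Not at hi
      exact hi
    have hch : ∀ i, ∃ s ∈ uIcc a b, (∃ s ∈ uIcc a b, ε < ‖F i s - F₀ s‖) →
        ε < ‖F i s - F₀ s‖ := by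
      intro i
      by_cases hi : ∃ s ∈ uIcc a b, ε < ‖F i s - F₀ s‖
      · obtain ⟨s, hs, hs'⟩ := hi
        exact ⟨s, hs, fun _ => hs'⟩
      · exact ⟨a, left_mem_uIcc, fun h => absurd h hi⟩
    choose s hs hs' using hch
    haveI : (l ⊓ 𝓟 {i | ∃ s ∈ uIcc a b, ε < ‖F i s - F₀ s‖}).NeBot :=
      frequently_iff_neBot.1 hfr
    obtain ⟨U, hU⟩ := Ultrafilter.exists_le (l ⊓ 𝓟 {i | ∃ s ∈ uIcc a b, ε < ‖F i s - F₀ s‖})
    obtain ⟨s₀, -, hs₀⟩ := isCompact_uIcc.ultrafilter_le_nhds (U.map s)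
      (le_principal_iff.2 (mem_map.2 (Eventually.of_forall hs)))
    have t1 : Tendsto s (U : Filter ι) (𝓝 s₀) := hs₀
    have t2 := ((h U s s₀ (hU.trans inf_le_left) t1).sub ((h0.tendsto s₀).comp t1)).norm
    rw [sub_self, norm_zero] at t2
    have hb : ∀ᶠ i in (U : Filter ι), ε ≤ ‖F i (s i) - (F₀ ∘ s) i‖ := by
      have : ∀ᶠ i in (U : Filter ι), ∃ s ∈ uIcc a b, ε < ‖F i s - F₀ s‖ :=
        le_principal_iff.1 (hU.trans inf_le_right)
      exact this.mono fun i hi => (hs' i hi).le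
    exact absurd (ge_of_tendsto t2 hb) (not_le.2 hε)
  refine Metric.tendsto_nhds.2 fun ε hε => ?_
  have hp : 0 < |b - a| + 1 := by positivity
  filter_upwards [key (ε / (|b - a| + 1)) (by positivity)] with i hi
  rw [dist_eq_norm, ← intervalIntegral.integral_sub ((hF i).intervalIntegrable a b)
    (h0.intervalIntegrable a b)]
  refine (intervalIntegral.norm_integral_le_of_norm_le_const fun s hs =>
    hi s (uIoc_subset_uIcc hs)).trans_lt ?_
  rw [div_mul_eq_mul_div, div_lt_iff₀ hp]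
  nlinarith

/-- The normalised length. -/
noncomputable def tau (g : Metric (Euc (m + 1)) M) (D : ℝ) (x : M) (v : Euc (m + 1)) : ℝ :=
  π * nrm g x v / (2 * D)

/-- The integral of the Jacobian over the closed orbit of `v`. -/
noncomputable def jb (g : Metric (Euc (m + 1)) M) (D : ℝ) (x : M) (v : Euc (m + 1)) : ℝ :=
  ∫ s in (0 : ℝ)..π, flw g (jac g) (s / tau g D x v) x v

theorem jb_eq (hD : 0 < D) {x : M} {v : Euc (m + 1)} (hv : nrm g x v = 2 * D / π) {τ : ℝ}
    (hτ : 0 < τ) : tau g D x (τ • v) = τ ∧ jb g D x (τ • v) = avJ g x v τ := by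
  have e : tau g D x (τ • v) = τ := by
    rw [tau, nrm_smul, hv, abs_of_pos hτ]
    field_simp
  refine ⟨e, ?_⟩
  rw [jb, e, avJ]
  refine intervalIntegral.integral_congr fun s _ => ?_
  have : τ * (s / τ) = s := by field_simp
  simp only [flw, Metric.geo_smul, vel_geo_smul, this]

theorem vol_ha_cont (g : Metric (Euc (m + 1)) M) (x : M) (v : Euc (m + 1)) (c : ℝ) :
    Continuous fun s : ℝ => flw g (jac g) (s / c) x v := by
  refine continuous_iff_continuousAt.2 fun s => ?_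
  exact (tcont_jac g).tendsto (tc_flow g (TC.const_base.2 tendsto_const_nhds)
    ((continuous_id.div_const c).tendsto s))

theorem vol_ha_tau (g : Metric (Euc (m + 1)) M) (D : ℝ) : TCont (tau g D) := fun _ _ _ h =>
  ((h.nrm g).const_mul π).div_const _

theorem tcont_cut (hD : 0 < D) {T : ℝ} (hT : 0 < T) :
    TCont fun x v => max 0 (tau g D x v - π / T) / tau g D x v * (jb g D x v / π) := by
  intro x₀ u₀ l hl
  have ht : Tendsto (fun p : M × Euc (m + 1) => tau g D p.1 p.2) l (𝓝 (tau g D x₀ u₀)) :=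
    vol_ha_tau g D x₀ u₀ l hl
  have hπ : 0 < π / T := div_pos pi_pos hT
  rcases lt_or_ge (tau g D x₀ u₀) (π / T) with h1 | h1
  · have e : max 0 (tau g D x₀ u₀ - π / T) = 0 := max_eq_left (by linarith)
    simp only [e, zero_div, zero_mul]
    refine tendsto_const_nhds.congr' ?_
    filter_upwards [ht.eventually (gt_mem_nhds h1)] with p hp
    rw [max_eq_left (by linarith), zero_div, zero_mul]
  · have h0 : tau g D x₀ u₀ ≠ 0 := (hπ.trans_le h1).ne'
    refine ((tendsto_const_nhds.max (ht.sub_const _)).div ht h0).mul (Tendsto.div_const ?_ _)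
    refine joint_int (F := fun (p : M × Euc (m + 1)) s => flw g (jac g) (s / tau g D p.1 p.2) p.1 p.2)
      (fun p => vol_ha_cont g _ _ _) (vol_ha_cont g _ _ _) fun l' s s₀ hl' hs => ?_
    exact (tcont_jac g).tendsto (tc_flow g (hl.mono hl') (hs.div (ht.mono_left hl') h0))

end Vale.Agent.P231
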