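import Vale.Agent.P231.V.MainA

/-!
# The volume inequality and its equality case  (TASK)

`τ x v = π nrm v / (2 D)`, `cut T τ = max 0 (τ - π / T)`, so that `cut T τ / τ = (1 - π / (τ T))₊`.  `jb x v = ∫ s in 0..π, flw jac (s / τ) x v` equals `avJ x (τ⁻¹ • v) τ` for `v ≠ 0` (`jb_eq`: `geo_smul`, `vel_geo_smul`).
`tcont_cut`: near `v₀` with `τ < π / T` the function vanishes; otherwise `τ₀ > 0` and use `joint_int` with `tc_flow`, `tcont_jac`, `TC.nrm`.  `joint_int`: uniform convergence on `[0, π]` by an ultrafilter argument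
(choose bad points `s i`, pass to an ultrafilter and a limit point), then `intervalIntegral.norm_integral_le_of_norm_le_const`.
`tav_ge`: `f s = flw jac (s / τ) x v` is continuous, nonnegative, `π`-periodic (`Per` for `τ⁻¹ • v`; the velocity is periodic too), `∫ c in 0..T, flw jac c = τ⁻¹ ∫ s in 0..τ T, f s ≥ τ⁻¹ ⌊τ T / π⌋ jb` (`Function.Periodic.intervalIntegral_add_zsmul_eq`).
Hence `TT (Φ_T) ≤ TT jac ≤ μ²` for `Φ_T = cut T τ / τ * jb / π` (`TT_tav`, `lintegral_const_mul'`), and `Φ_T ≥ m_T = cut T τ / τ * mdl τ` on the ball (`ray_ge`).  `TT m_T = μ univ * I_T` (`TI_radial`), `⨆ T : ℕ, I_T = ofReal modelVol`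
(`lintegral_iSup`, `model_int`, `{0}` is null).  `vol_ge`: `μ univ ≠ 0` (`openPos`), cancel.  `vol_eq`: `Δ = Φ_{T₀} - m_{T₀}` is `TCont`, `Φ_T ≥ m_T + Δ` for `T ≥ T₀`, `le_lintegral_add` twice, so `μ I_T + TT Δ ≤ μ² ≤ μ V < ∞`; let `T → ∞`; `TT_pos`.
This file holds one portion of the plan above.  Prefix helper names by `vol_hb_`.
-/

namespace Vale.Agent.P231

open scoped ContDiff Manifold ENNReal Topology
open Vale.Agent.P255 Vale.Agent.P234 Vale.Agent.P219.St Set Filter MeasureTheory Real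

variable {m k : ℕ} {M : Type*} [TopologicalSpace M] [ChartedSpace (Euc (m + 1)) M]
  [IsManifold 𝓘(ℝ, Euc (m + 1)) ∞ M] [T2Space M] [CompactSpace M] [ConnectedSpace M]
  [MeasurableSpace M] [BorelSpace M] {g : Metric (Euc (m + 1)) M} {μ : Measure M} {D : ℝ}

theorem vol_hb_nrm (hD : 0 < D) {x : M} {v : Euc (m + 1)} (h : 0 < tau g D x v) :
    nrm g x ((tau g D x v)⁻¹ • v) = 2 * D / π := by
  have hn : nrm g x v ≠ 0 := by
    intro h0
    simp [tau, h0] at h
  rw [nrm_smul, abs_of_pos (inv_pos.2 h), tau]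
  field_simp

theorem vol_hb_per (hD : 0 < D) (hP : Per g D) {x : M} {v : Euc (m + 1)} (h : 0 < tau g D x v) :
    Function.Periodic (fun s : ℝ => flw g (jac g) (s / tau g D x v) x v) π := by
  set τ := tau g D x v with hτ
  have hu := hP x _ (vol_hb_nrm hD h)
  rw [← hτ] at hu
  have hv : v = τ • (τ⁻¹ • v) := by rw [smul_smul, mul_inv_cancel₀ h.ne', one_smul]
  generalize τ⁻¹ • v = u at hu hv
  have e : ∀ s : ℝ, flw g (jac g) (s / τ) x v =
      jac g (g.geo x u s) (τ • vel (Euc (m + 1)) (g.geo x u) s) := by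
    intro s
    have : τ * (s / τ) = s := by field_simp
    rw [hv]
    simp only [flw, Metric.geo_smul, vel_geo_smul, this]
  intro s
  have e2 : vel (Euc (m + 1)) (g.geo x u) (s + π) = vel (Euc (m + 1)) (g.geo x u) s := by
    unfold vel
    rw [hu s, ← deriv_comp_add_const]
    refine congrArg (fun f : ℝ → Euc (m + 1) => deriv f s) ?_
    funext t
    simp only [Function.comp_apply, hu t]
  simp only [e, hu s, e2]

theorem tav_ge (hD : 0 < D) (hP : Per g D) {T : ℝ} (hT : 0 < T) (x : M) (v : Euc (m + 1)) :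
    T * (max 0 (tau g D x v - π / T) / tau g D x v * (jb g D x v / π)) ≤
      ∫ c in (0 : ℝ)..T, flw g (jac g) c x v := by
  have hnn : ∀ c, 0 ≤ flw g (jac g) c x v := fun c => jac_nonneg g _ _
  have hπ : 0 < π / T := div_pos pi_pos hT
  rcases le_or_gt (tau g D x v) (π / T) with h1 | h1
  · rw [max_eq_left (by linarith), zero_div, zero_mul, mul_zero]
    exact intervalIntegral.integral_nonneg hT.le fun c _ => hnn c
  have h0 : 0 < tau g D x v := hπ.trans h1
  have hper := vol_hb_per hD hP h0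
  have hc := vol_ha_cont g x v (tau g D x v)
  have hjb : 0 ≤ jb g D x v := intervalIntegral.integral_nonneg pi_pos.le fun c _ => hnn _
  have e1 : ∫ s in (0 : ℝ)..tau g D x v * T, flw g (jac g) (s / tau g D x v) x v =
      tau g D x v * ∫ c in (0 : ℝ)..T, flw g (jac g) c x v := by
    rw [intervalIntegral.integral_comp_div (fun c => flw g (jac g) c x v) h0.ne', zero_div,
      mul_div_cancel_left₀ _ h0.ne', smul_eq_mul]
  set n : ℕ := ⌊tau g D x v * T / π⌋₊ with hn
  have hn1 : (n : ℝ) * π ≤ tau g D x v * T := by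
    rw [← le_div_iff₀ pi_pos]
    exact Nat.floor_le (by positivity)
  have hn2 : tau g D x v * T / π < n + 1 := Nat.lt_floor_add_one _
  have e2 : ∫ s in (0 : ℝ)..(n : ℝ) * π, flw g (jac g) (s / tau g D x v) x v = n * jb g D x v := by
    have := hper.intervalIntegral_add_zsmul_eq (n : ℤ) 0 fun a b => hc.intervalIntegrable a b
    simpa [jb] using this
  have e3 : ∫ s in (0 : ℝ)..(n : ℝ) * π, flw g (jac g) (s / tau g D x v) x v ≤
      ∫ s in (0 : ℝ)..tau g D x v * T, flw g (jac g) (s / tau g D x v) x v :=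
    intervalIntegral.integral_mono_interval le_rfl (by positivity) hn1
      (Eventually.of_forall fun s => hnn _) (hc.intervalIntegrable _ _)
  rw [e1, e2] at e3
  rw [max_eq_right (by linarith)]
  have e4 : T * ((tau g D x v - π / T) / tau g D x v * (jb g D x v / π)) =
      (tau g D x v * T / π - 1) * jb g D x v / tau g D x v := by
    field_simp
  rw [e4, div_le_iff₀ h0]
  nlinarith

end Vale.Agent.P231
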