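import Vale.Agent.P231.V.MeasB

/-!
# The Riemannian measure of a compact manifold and the change of variables formula  (TASK)

Cover `M` by finitely many chart sources `e i = chartAt (x i)`, `i : Fin N` (`IsCompact.elim_nhds_subcover`, `Finset.equivFin`), `P i = disjointed` pieces (`disjointed`, `MeasurableSet.disjointed`, or `source i \ ⋃ j < i`),
`μ = ∑ i, Measure.map (e i).symm ((volume.restrict (e i '' P i)).withDensity (fun a => ofReal (dens g (e i).symm a)))`; `(e i).symm` is a.e. measurable for the restricted measure (`ContinuousOn.aemeasurable`);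
`e i '' P i = target ∩ symm ⁻¹' P i` is measurable (`MeasurableSet.image_of_continuousOn_injOn` applied suitably, or `ContinuousOn.measurable_piecewise`); `dens g (e i).symm` is continuous on the target because it equals
`√det (g.g (e i) a (single i) (single j))` there (`dens_chart` with `φ = symm`).  `le`: take the parametrisations `(e i).symm` on `e i '' P i` in `rmeas` (`le_iSup_of_le`; `contMDiffOn_symm_of_mem_maximalAtlas`,
`IsManifold.subset_maximalAtlas`).  `dens_chart`: `pull g φ z u v = g.g e (e φ z) (ψ' u) (ψ' v)` for `ψ = e ∘ φ` (`ip_eq`, chain rule as `P219.red1_chain`), and the Gram determinant of `ψ' (single i)` is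
`det ψ'² · det G` (`LinearMap.toMatrix`, `Matrix.det_mul`; compare `P219.red2_gram`).  `cv`: split `S` into `S i = S ∩ φ ⁻¹' P i` (measurable: `φ` is continuous on `S`), use
`lintegral_image_eq_lintegral_abs_det_fderiv_mul` for `e i ∘ φ` on `S i`, `lintegral_finset_sum_measure`, `lintegral_iUnion` or `lintegral_biUnion_finset`; `φ '' S` is measurable (`MeasurableSet.image_of_continuousOn_injOn`, `M` second countable:
`ChartedSpace.secondCountable_of_sigmaCompact`).  `RV.openPos`: apply `cv` to a chart inverse on `e '' (U ∩ source)` with `F = 1`; the density is positive.  This file holds one portion of the plan above.  Prefix helper names by `meas_hc_`.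
-/

namespace Vale.Agent.P231

open scoped ContDiff Manifold ENNReal Topology
open Vale.Agent.P255 Vale.Agent.P234 Vale.Agent.P219.St Set Filter MeasureTheory

variable {n : ℕ} {M : Type*} [TopologicalSpace M] [ChartedSpace (Euc n) M]
  [IsManifold 𝓘(ℝ, Euc n) ∞ M] [T2Space M] [CompactSpace M] [MeasurableSpace M] [BorelSpace M]
  {g : Metric (Euc n) M} {μ : Measure M}

theorem meas_hc_pos (g : Metric (Euc n) M) {e : OpenPartialHomeomorph M (Euc n)}
    (he : e ∈ atlas (Euc n) M) {a : Euc n} (ha : a ∈ e.target) : 0 < meas_hb_w g e a := by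
  refine Real.sqrt_pos.2 (Matrix.PosDef.det_pos (Matrix.PosDef.of_dotProduct_mulVec_pos ?_ ?_))
  · ext i j
    exact g.symm e he a ha _ _
  · intro x hx
    have h1 : (∑ i, x i • EuclideanSpace.single i (1 : ℝ) : Euc n) ≠ 0 := fun h => hx (by
      funext i
      simpa [Pi.single_apply] using congrArg (fun y : Euc n => y i) h)
    have h2 := g.pos e he a ha _ h1
    simp only [map_sum, map_smul, sum_apply, smul_apply, smul_eq_mul, Finset.mul_sum] at h2
    rw [Finset.sum_comm] at h2
    simp only [dotProduct, Matrix.mulVec, Matrix.of_apply, star_trivial, Finset.mul_sum]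
    refine h2.trans_eq (Finset.sum_congr rfl fun i _ => Finset.sum_congr rfl fun j _ => by ring)

theorem RV.openPos (h : RV g μ) : μ.IsOpenPosMeasure := by
  refine ⟨fun U hU ⟨x, hx⟩ h0 => ?_⟩
  set e := chartAt (Euc n) x
  have he : e ∈ atlas (Euc n) M := chart_mem_atlas _ _
  have hT : IsOpen (e.target ∩ e.symm ⁻¹' U) := e.continuousOn_symm.isOpen_inter_preimage e.open_target hU
  have h1 := h.cv _ _ hT.measurableSet (meas_hb_param he inter_subset_left) (fun _ => 1)
    measurable_const
  have h2 : μ (e.symm '' (e.target ∩ e.symm ⁻¹' U)) = 0 :=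
    measure_mono_null (by rintro _ ⟨a, ha, rfl⟩; exact ha.2) h0
  have h3 : ∀ a ∈ e.target ∩ e.symm ⁻¹' U, dens g e.symm a = meas_hb_w g e a := by
    intro a ha
    have h4 : e ∘ e.symm =ᶠ[𝓝 a] id := by
      filter_upwards [e.open_target.mem_nhds ha.1] with b hb
      exact e.right_inv hb
    rw [dens_chart g he ((meas_hb_param he inter_subset_left).1 a ha) (e.map_target ha.1),
      h4.fderiv_eq, fderiv_id, e.right_inv ha.1]
    simp [meas_hb_w, ContinuousLinearMap.det]
  rw [setLIntegral_const, h2, mul_zero, setLIntegral_congr_fun hT.measurableSet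
    (g := fun a => ENNReal.ofReal (meas_hb_w g e a)) fun a ha => by simp only [h3 a ha, one_mul],
    eq_comm, lintegral_eq_zero_iff'
      (((meas_hb_w_cont g he).mono inter_subset_left).aemeasurable hT.measurableSet).ennreal_ofReal]
    at h1
  have h5 : volume (e.target ∩ e.symm ⁻¹' U) = 0 := by
    rw [← Measure.restrict_eq_zero, ← ae_eq_bot, ← eventually_false_iff_eq_bot]
    filter_upwards [h1, ae_restrict_mem hT.measurableSet] with a ha1 ha2
    exact (ENNReal.ofReal_pos.2 (meas_hc_pos g he ha2.1)).ne' ha1
  exact hT.measure_ne_zero volume ⟨e x, e.map_source (mem_chart_source _ x), by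
    rw [mem_preimage, e.left_inv (mem_chart_source _ x)]; exact hx⟩ h5

end Vale.Agent.P231
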