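import Vale.Agent.P231.Stmt
import Vale.Agent.P234.Basic

/-!
# The Riemannian measure of a compact manifold and the change of variables formula  (TASK)

Cover `M` by finitely many chart sources `e i = chartAt (x i)`, `i : Fin N` (`IsCompact.elim_nhds_subcover`, `Finset.equivFin`), `P i = disjointed` pieces (`disjointed`, `MeasurableSet.disjointed`, or `source i \ ⋃ j < i`),
`μ = ∑ i, Measure.map (e i).symm ((volume.restrict (e i '' P i)).withDensity (fun a => ofReal (dens g (e i).symm a)))`; `(e i).symm` is a.e. measurable for the restricted measure (`ContinuousOn.aemeasurable`);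
`e i '' P i = target ∩ symm ⁻¹' P i` is measurable (`MeasurableSet.image_of_continuousOn_injOn` applied suitably, or `ContinuousOn.measurable_piecewise`); `dens g (e i).symm` is continuous on the target because it equals
`√det (g.g (e i) a (single i) (single j))` there (`dens_chart` with `φ = symm`).  `le`: take the parametrisations `(e i).symm` on `e i '' P i` in `rmeas` (`le_iSup_of_le`; `contMDiffOn_symm_of_mem_maximalAtlas`,
`IsManifold.subset_maximalAtlas`).  `dens_chart`: `pull g φ z u v = g.g e (e φ z) (ψ' u) (ψ' v)` for `ψ = e ∘ φ` (`ip_eq`, chain rule as `P219.red1_chain`), and the Gram determinant of `ψ' (single i)` is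
`det ψ'² · det G` (`LinearMap.toMatrix`, `Matrix.det_mul`; compare `P219.red2_gram`).  `cv`: split `S` into `S i = S ∩ φ ⁻¹' P i` (measurable: `φ` is continuous on `S`), use
`lintegral_image_eq_lintegral_abs_det_fderiv_mul` for `e i ∘ φ` on `S i`, `lintegral_finset_sum_measure`, `lintegral_iUnion` or `lintegral_biUnion_finset`; `φ '' S` is measurable (`MeasurableSet.image_of_continuousOn_injOn`, `M` second countable:
`ChartedSpace.secondCountable_of_sigmaCompact`).  `RV.openPos`: apply `cv` to a chart inverse on `e '' (U ∩ source)` with `F = 1`; the density is positive.  This file holds one portion of the plan above.  Prefix helper names by `meas_ha_`.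
-/

namespace Vale.Agent.P231

open scoped ContDiff Manifold ENNReal Topology
open Vale.Agent.P255 Vale.Agent.P234 Vale.Agent.P219.St Set Filter MeasureTheory

variable {n : ℕ} {M : Type*} [TopologicalSpace M] [ChartedSpace (Euc n) M]
  [IsManifold 𝓘(ℝ, Euc n) ∞ M] [T2Space M] [CompactSpace M] [MeasurableSpace M] [BorelSpace M]
  {g : Metric (Euc n) M} {μ : Measure M}

/-- `μ` is the Riemannian measure. -/
structure RV (g : Metric (Euc n) M) (μ : Measure M) : Prop where
  sfin : SFinite μ
  le : μ univ ≤ rmeas g n univ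
  cv : ∀ (φ : Euc n → M) (S : Set (Euc n)), MeasurableSet S → Param (Euc n) φ S univ →
    ∀ F : M → ℝ≥0∞, Measurable F →
      ∫⁻ y in φ '' S, F y ∂μ = ∫⁻ z in S, F (φ z) * ENNReal.ofReal (dens g φ z)

theorem meas_ha_gram (B : Euc n →L[ℝ] Euc n →L[ℝ] ℝ) (L : Euc n →L[ℝ] Euc n) :
    (Matrix.of fun i j : Fin n =>
      B (L (EuclideanSpace.single i 1)) (L (EuclideanSpace.single j 1))).det =
    L.det ^ 2 * (Matrix.of fun i j : Fin n =>
      B (EuclideanSpace.single i 1) (EuclideanSpace.single j 1)).det := by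
  set b := (EuclideanSpace.basisFun (Fin n) ℝ).toBasis
  set A := LinearMap.toMatrix b b (L : Euc n →ₗ[ℝ] Euc n) with hA
  have h1 : ∀ i, L (EuclideanSpace.single i 1) = ∑ k, A k i • EuclideanSpace.single k (1 : ℝ) := by
    intro i
    have h2 := (b.sum_repr (L (b i))).symm
    simpa [b, hA, LinearMap.toMatrix_apply] using h2
  have h3 : (Matrix.of fun i j : Fin n =>
      B (L (EuclideanSpace.single i 1)) (L (EuclideanSpace.single j 1))) =
      A.transpose * (Matrix.of fun i j : Fin n =>
        B (EuclideanSpace.single i 1) (EuclideanSpace.single j 1)) * A := by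
    ext i j
    simp only [Matrix.of_apply, h1, map_sum, map_smul, sum_apply, smul_apply, smul_eq_mul,
      Matrix.mul_apply, Matrix.transpose_apply, Finset.sum_mul, Finset.mul_sum]
    exact Finset.sum_congr rfl fun k _ => Finset.sum_congr rfl fun l _ => by ring
  rw [h3, Matrix.det_mul, Matrix.det_mul, Matrix.det_transpose, hA, LinearMap.det_toMatrix]
  change _ = LinearMap.det (L : Euc n →ₗ[ℝ] Euc n) ^ 2 * _
  ring

omit [T2Space M] [CompactSpace M] [MeasurableSpace M] [BorelSpace M] in
theorem dens_chart (g : Metric (Euc n) M) {e : OpenPartialHomeomorph M (Euc n)}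
    (he : e ∈ atlas (Euc n) M) {φ : Euc n → M} {z : Euc n}
    (hφ : ContMDiffAt 𝓘(ℝ, Euc n) 𝓘(ℝ, Euc n) 1 φ z) (hz : φ z ∈ e.source) :
    dens g φ z = |(fderiv ℝ (e ∘ φ) z).det| * √(Matrix.of fun i j : Fin n =>
      g.g e (e (φ z)) (EuclideanSpace.single i 1) (EuclideanSpace.single j 1)).det := by
  have hc := chart_mem_atlas (Euc n) (φ z)
  have hs := mem_chart_source (Euc n) (φ z)
  rw [contMDiffAt_iff_target, contMDiffAt_iff_contDiffAt] at hφ
  have hd : DifferentiableAt ℝ (chartAt (Euc n) (φ z) ∘ φ) z := hφ.2.differentiableAt (by simp)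
  have h1 : e ∘ φ =ᶠ[𝓝 z] (e ∘ (chartAt (Euc n) (φ z)).symm) ∘ (chartAt (Euc n) (φ z) ∘ φ) := by
    filter_upwards [hφ.1.preimage_mem_nhds ((chartAt (Euc n) (φ z)).open_source.mem_nhds hs)]
      with y hy
    simp only [Function.comp_apply, (chartAt (Euc n) (φ z)).left_inv hy]
  have h2 : ∀ u v, pull g φ z u v =
      g.g e (e (φ z)) (fderiv ℝ (e ∘ φ) z u) (fderiv ℝ (e ∘ φ) z v) := by
    intro u v
    rw [h1.fderiv_eq, fderiv_comp (f := chartAt (Euc n) (φ z) ∘ φ) z
      ((tr_contDiffAt hc he hs hz).differentiableAt (by simp)) hd]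
    exact g.compat _ hc e he _ hs hz _ _
  simp only [dens, h2]
  rw [meas_ha_gram, Real.sqrt_mul (sq_nonneg _), Real.sqrt_sq_eq_abs]

end Vale.Agent.P231
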