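import Vale.Agent.P231.V.MeasA

/-!
# The Riemannian measure of a compact manifold and the change of variables formula  (TASK)

Cover `M` by finitely many chart sources `e i = chartAt (x i)`, `i : Fin N` (`IsCompact.elim_nhds_subcover`, `Finset.equivFin`), `P i = disjointed` pieces (`disjointed`, `MeasurableSet.disjointed`, or `source i \ ⋃ j < i`),
`μ = ∑ i, Measure.map (e i).symm ((volume.restrict (e i '' P i)).withDensity (fun a => ofReal (dens g (e i).symm a)))`; `(e i).symm` is a.e. measurable for the restricted measure (`ContinuousOn.aemeasurable`);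
`e i '' P i = target ∩ symm ⁻¹' P i` is measurable (`MeasurableSet.image_of_continuousOn_injOn` applied suitably, or `ContinuousOn.measurable_piecewise`); `dens g (e i).symm` is continuous on the target because it equals
`√det (g.g (e i) a (single i) (single j))` there (`dens_chart` with `φ = symm`).  `le`: take the parametrisations `(e i).symm` on `e i '' P i` in `rmeas` (`le_iSup_of_le`; `contMDiffOn_symm_of_mem_maximalAtlas`,
`IsManifold.subset_maximalAtlas`).  `dens_chart`: `pull g φ z u v = g.g e (e φ z) (ψ' u) (ψ' v)` for `ψ = e ∘ φ` (`ip_eq`, chain rule as `P219.red1_chain`), and the Gram determinant of `ψ' (single i)` is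
`det ψ'² · det G` (`LinearMap.toMatrix`, `Matrix.det_mul`; compare `P219.red2_gram`).  `cv`: split `S` into `S i = S ∩ φ ⁻¹' P i` (measurable: `φ` is continuous on `S`), use
`lintegral_image_eq_lintegral_abs_det_fderiv_mul` for `e i ∘ φ` on `S i`, `lintegral_finset_sum_measure`, `lintegral_iUnion` or `lintegral_biUnion_finset`; `φ '' S` is measurable (`MeasurableSet.image_of_continuousOn_injOn`, `M` second countable:
`ChartedSpace.secondCountable_of_sigmaCompact`).  `RV.openPos`: apply `cv` to a chart inverse on `e '' (U ∩ source)` with `F = 1`; the density is positive.  This file holds one portion of the plan above.  Prefix helper names by `meas_hb_`.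
-/

namespace Vale.Agent.P231

open scoped ContDiff Manifold ENNReal Topology
open Vale.Agent.P255 Vale.Agent.P234 Vale.Agent.P219.St Set Filter MeasureTheory

variable {n : ℕ} {M : Type*} [TopologicalSpace M] [ChartedSpace (Euc n) M]
  [IsManifold 𝓘(ℝ, Euc n) ∞ M] [T2Space M] [CompactSpace M] [MeasurableSpace M] [BorelSpace M]
  {g : Metric (Euc n) M} {μ : Measure M}

/-- The density of the metric in a chart. -/
noncomputable def meas_hb_w (g : Metric (Euc n) M) (e : OpenPartialHomeomorph M (Euc n))
    (a : Euc n) : ℝ := √(Matrix.of fun i j : Fin n =>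
      g.g e a (EuclideanSpace.single i 1) (EuclideanSpace.single j 1)).det

open Classical in
/-- A measurable version of the inverse chart. -/
noncomputable def meas_hb_s (e : OpenPartialHomeomorph M (Euc n)) : Euc n → M :=
  e.target.piecewise e.symm fun _ => e.symm 0

theorem meas_hb_s_meas (e : OpenPartialHomeomorph M (Euc n)) : Measurable (meas_hb_s e) := by
  classical
  exact e.continuousOn_symm.measurable_piecewise continuousOn_const e.open_target.measurableSet

theorem meas_hb_s_eq {e : OpenPartialHomeomorph M (Euc n)} {a : Euc n} (ha : a ∈ e.target) :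
    meas_hb_s e a = e.symm a := by
  classical
  exact piecewise_eq_of_mem _ _ _ ha

theorem meas_hb_w_cont (g : Metric (Euc n) M) {e : OpenPartialHomeomorph M (Euc n)}
    (he : e ∈ atlas (Euc n) M) : ContinuousOn (meas_hb_w g e) e.target := by
  have h1 : ContinuousOn (fun a => Matrix.of fun i j : Fin n =>
      g.g e a (EuclideanSpace.single i 1) (EuclideanSpace.single j 1)) e.target :=
    continuousOn_pi.2 fun i => continuousOn_pi.2 fun j =>
      ((g.smooth e he).continuousOn.clm_apply continuousOn_const).clm_apply continuousOn_const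
  exact Real.continuous_sqrt.comp_continuousOn (continuous_id.matrix_det.comp_continuousOn h1)

/-- The part of the measure carried by the piece `P` of the chart `e`. -/
noncomputable def meas_hb_mu (g : Metric (Euc n) M) (e : OpenPartialHomeomorph M (Euc n))
    (P : Set M) : Measure M :=
  ((volume.restrict (e.target ∩ meas_hb_s e ⁻¹' P)).withDensity
    fun a => ENNReal.ofReal (meas_hb_w g e a)).map (meas_hb_s e)

theorem meas_hb_lint (g : Metric (Euc n) M) {e : OpenPartialHomeomorph M (Euc n)}
    (he : e ∈ atlas (Euc n) M) {P B : Set M} (hP : MeasurableSet P) (hB : MeasurableSet B)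
    {F : M → ℝ≥0∞} (hF : Measurable F) : ∫⁻ y in B, F y ∂meas_hb_mu g e P =
      ∫⁻ a in e.target ∩ meas_hb_s e ⁻¹' (P ∩ B),
        ENNReal.ofReal (meas_hb_w g e a) * F (meas_hb_s e a) := by
  have hT : MeasurableSet (e.target ∩ meas_hb_s e ⁻¹' (P ∩ B)) :=
    e.open_target.measurableSet.inter (meas_hb_s_meas e (hP.inter hB))
  have h1 : meas_hb_s e ⁻¹' B ∩ (e.target ∩ meas_hb_s e ⁻¹' P) =
      e.target ∩ meas_hb_s e ⁻¹' (P ∩ B) := by
    ext a
    simp only [mem_inter_iff, mem_preimage]
    tauto
  rw [meas_hb_mu, setLIntegral_map hB hF (meas_hb_s_meas e),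
    restrict_withDensity (meas_hb_s_meas e hB), Measure.restrict_restrict (meas_hb_s_meas e hB), h1]
  exact lintegral_withDensity_eq_lintegral_mul₀
    (((meas_hb_w_cont g he).mono inter_subset_left).aemeasurable hT).ennreal_ofReal
    (hF.comp (meas_hb_s_meas e)).aemeasurable

theorem meas_hb_pre {φ : Euc n → M} {S : Set (Euc n)} (hS : MeasurableSet S)
    (hc : ContinuousOn φ S) {P : Set M} (hP : MeasurableSet P) : MeasurableSet (S ∩ φ ⁻¹' P) := by
  classical
  have h1 := hS.inter (hc.measurable_piecewise (g := fun _ => φ 0) continuousOn_const hS hP)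
  have h2 : S ∩ S.piecewise φ (fun _ => φ 0) ⁻¹' P = S ∩ φ ⁻¹' P := by
    ext z
    simp only [mem_inter_iff, mem_preimage, and_congr_right_iff]
    intro hz
    rw [piecewise_eq_of_mem _ _ _ hz]
  rwa [h2] at h1

theorem meas_hb_piece (g : Metric (Euc n) M) {e : OpenPartialHomeomorph M (Euc n)}
    (he : e ∈ atlas (Euc n) M) {P : Set M} (hP : MeasurableSet P) (hPe : P ⊆ e.source)
    {φ : Euc n → M} {S : Set (Euc n)} (hS : MeasurableSet S) (hφ : Param (Euc n) φ S univ)
    {F : M → ℝ≥0∞} (hF : Measurable F) : ∫⁻ y in φ '' S, F y ∂meas_hb_mu g e P =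
      ∫⁻ z in S ∩ φ ⁻¹' P, F (φ z) * ENNReal.ofReal (dens g φ z) := by
  have hc : ContinuousOn φ S := fun z hz => (hφ.1 z hz).continuousAt.continuousWithinAt
  have hS' := meas_hb_pre hS hc hP
  have h1 : e.target ∩ meas_hb_s e ⁻¹' (P ∩ φ '' S) = (e ∘ φ) '' (S ∩ φ ⁻¹' P) := by
    ext a
    constructor
    · rintro ⟨ha, hp, z, hz, hz'⟩
      refine ⟨z, ⟨hz, by rw [mem_preimage, hz']; exact hp⟩, ?_⟩
      rw [Function.comp_apply, hz', meas_hb_s_eq ha, e.right_inv ha]
    · rintro ⟨z, ⟨hz, hp⟩, rfl⟩
      have ha : (e ∘ φ) z ∈ e.target := e.map_source (hPe hp)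
      have h2 : meas_hb_s e ((e ∘ φ) z) = φ z := by
        rw [meas_hb_s_eq ha, Function.comp_apply, e.left_inv (hPe hp)]
      exact ⟨ha, by rw [mem_preimage, h2]; exact ⟨hp, z, hz, rfl⟩⟩
  have hd : ∀ z ∈ S ∩ φ ⁻¹' P, HasFDerivWithinAt (e ∘ φ) (fderiv ℝ (e ∘ φ) z) (S ∩ φ ⁻¹' P) z := by
    intro z hz
    have h3 : ContMDiffAt 𝓘(ℝ, Euc n) 𝓘(ℝ, Euc n) 1 e (φ z) :=
      (contMDiffAt_of_mem_maximalAtlas (n := ∞) (IsManifold.subset_maximalAtlas he)
        (hPe hz.2)).of_le (by simp)
    exact ((contMDiffAt_iff_contDiffAt.1 (h3.comp z (hφ.1 z hz.1))).differentiableAt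
      (by simp)).hasFDerivAt.hasFDerivWithinAt
  have hi : InjOn (e ∘ φ) (S ∩ φ ⁻¹' P) := fun z hz z' hz' h =>
    hφ.2.1 hz.1 hz'.1 (e.injOn (hPe hz.2) (hPe hz'.2) h)
  rw [meas_hb_lint g he hP (hS.image_of_continuousOn_injOn hc hφ.2.1) hF, h1,
    lintegral_image_eq_lintegral_abs_det_fderiv_mul volume hS' hd hi]
  refine setLIntegral_congr_fun hS' fun z hz => ?_
  have ha : (e ∘ φ) z ∈ e.target := e.map_source (hPe hz.2)
  rw [meas_hb_s_eq ha, dens_chart g he (hφ.1 z hz.1) (hPe hz.2), ENNReal.ofReal_mul (abs_nonneg _),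
    Function.comp_apply, e.left_inv (hPe hz.2), ← mul_assoc, mul_comm]
  rfl

theorem meas_hb_param {e : OpenPartialHomeomorph M (Euc n)} (he : e ∈ atlas (Euc n) M)
    {T : Set (Euc n)} (hT : T ⊆ e.target) : Param (Euc n) e.symm T univ :=
  ⟨fun _ hz => (contMDiffAt_symm_of_mem_maximalAtlas (n := ∞) (IsManifold.subset_maximalAtlas he)
    (hT hz)).of_le (by simp), e.symm.injOn.mono hT, mapsTo_univ _ _⟩

theorem exists_rv (g : Metric (Euc n) M) : ∃ μ, RV g μ := by
  obtain ⟨s, -, hs⟩ := isCompact_univ.elim_nhds_subcover (fun x : M => (chartAt (Euc n) x).source)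
    fun x _ => chart_source_mem_nhds _ x
  set e : Fin s.card → OpenPartialHomeomorph M (Euc n) := fun i => chartAt (Euc n) (s.equivFin.symm i : M)
    with he
  have hea : ∀ i, e i ∈ atlas (Euc n) M := fun i => chart_mem_atlas _ _
  set P : Fin s.card → Set M := disjointed fun i => (e i).source with hP
  have hPm : ∀ i, MeasurableSet (P i) := fun i => by
    rw [hP, disjointed_apply]
    exact (e i).open_source.measurableSet.diff
      (Finset.sup_induction (p := fun t : Set M => MeasurableSet t) MeasurableSet.empty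
        (fun _ h1 _ h2 => h1.union h2) fun j _ => (e j).open_source.measurableSet)
  have hPe : ∀ i, P i ⊆ (e i).source := fun i => disjointed_le (fun i => (e i).source) i
  have hPd : Pairwise (Function.onFun Disjoint P) := disjoint_disjointed _
  have hPu : ⋃ i, P i = univ := by
    rw [hP, iUnion_disjointed]
    refine eq_univ_of_forall fun x => ?_
    obtain ⟨y, hy, hx⟩ := mem_iUnion₂.1 (hs (mem_univ x))
    exact mem_iUnion.2 ⟨s.equivFin ⟨y, hy⟩, by simpa [he] using hx⟩
  have cv : ∀ (φ : Euc n → M) (S : Set (Euc n)), MeasurableSet S → Param (Euc n) φ S univ →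
      ∀ F : M → ℝ≥0∞, Measurable F →
        ∫⁻ y in φ '' S, F y ∂Measure.sum (fun i => meas_hb_mu g (e i) (P i)) =
          ∫⁻ z in S, F (φ z) * ENNReal.ofReal (dens g φ z) := by
    intro φ S hS hφ F hF
    have hc : ContinuousOn φ S := fun z hz => (hφ.1 z hz).continuousAt.continuousWithinAt
    rw [Measure.restrict_sum _ (hS.image_of_continuousOn_injOn hc hφ.2.1), lintegral_sum_measure]
    simp only [fun i => meas_hb_piece g (hea i) (hPm i) (hPe i) hS hφ hF]
    rw [← lintegral_iUnion (fun i => meas_hb_pre hS hc (hPm i)) fun i j hij =>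
      ((hPd hij).preimage φ).mono inter_subset_right inter_subset_right, ← inter_iUnion,
      ← preimage_iUnion, hPu, preimage_univ, inter_univ]
  refine ⟨Measure.sum fun i => meas_hb_mu g (e i) (P i), ?_, ?_, cv⟩
  · have : ∀ i, SFinite (meas_hb_mu g (e i) (P i)) := fun i => by
      unfold meas_hb_mu
      infer_instance
    infer_instance
  · have hTm : ∀ i, MeasurableSet ((e i).target ∩ (e i).symm ⁻¹' P i) := fun i =>
      meas_hb_pre (e i).open_target.measurableSet (e i).continuousOn_symm (hPm i)
    have him : ∀ i, (e i).symm '' ((e i).target ∩ (e i).symm ⁻¹' P i) = P i := fun i =>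
      Subset.antisymm (by rintro _ ⟨a, ha, rfl⟩; exact ha.2) fun x hx =>
        ⟨e i x, ⟨(e i).map_source (hPe i hx), by
          rw [mem_preimage, (e i).left_inv (hPe i hx)]; exact hx⟩, (e i).left_inv (hPe i hx)⟩
    refine le_iSup_of_le s.card (le_iSup₂_of_le (fun i => (e i).symm)
      (fun i => (e i).target ∩ (e i).symm ⁻¹' P i) (le_iSup₂_of_le
        (fun i => ⟨hTm i, meas_hb_param (hea i) inter_subset_left⟩)
        (fun i j hij => by rw [him, him]; exact hPd hij) (le_of_eq ?_)))
    rw [← hPu, measure_iUnion hPd hPm, tsum_fintype]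
    refine Finset.sum_congr rfl fun i _ => ?_
    have h1 := cv _ _ (hTm i) (meas_hb_param (hea i) inter_subset_left) (fun _ => 1) measurable_const
    rw [him] at h1
    simpa using h1

end Vale.Agent.P231
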