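import Vale.Agent.P231.V.PairB

/-!
# Integration over the ball bundle, written on pairs of points  (TASK)

`dens_exp`: `jac_basis` with `(EuclideanSpace.basisFun _ ℝ).toBasis`, `gram_pos`, `Real.sqrt_div`; `pull g (exp x) v a b = ip (exp v) (dexp a) (dexp b)` by definition.
`exp_cv`: `cv` with `φ = exp x`, `S = {nrm < r}` (open), injective by `lg_exp`, `C¹` by `contDiffAt_exp`, `continuous_exp` (`contMDiffAt_iff`; `extChartAt` for the model `𝓘(ℝ, E)` is `chartAt`), image `{rdist < r}` by `lg_spec`, `rdist_exp`.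
`measurable_pf`: the function is continuous on the open set `{rdist < r}` (`tc_lg`, `TCont.tendsto`, `tcont_jac`, `jac_pos`) and `0` outside (`ContinuousOn.measurable_piecewise`); `M` is second countable so the product has the Borel structure.
The version with a time parameter uses `tc_flow`.  `TI_eq`: `exp_cv` with `F y = pf (x, y)`, `lg_exp`, `ofReal_mul`.  `TT_flip`: `TI_eq`, `lintegral_lintegral_swap`, `rdist_comm`, and
`pf (flip Φ) (x, y) = pf Φ (y, x)` (`lg_flip`, `jac_flip`, `lg_spec`); `flip Φ` is `TCont` (`tc_flow` with `t = 1`, `TC.smul`).  `TT_pos`: `lintegral_prod`, `IsOpenPosMeasure` of the product, `lintegral_pos_iff_support`.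
This file holds one portion of the plan above.  Prefix helper names by `pair_hc_`.
-/

namespace Vale.Agent.P231

open scoped ContDiff Manifold ENNReal Topology
open Vale.Agent.P255 Vale.Agent.P234 Vale.Agent.P219.St Set Filter MeasureTheory

variable {m : ℕ} {M : Type*} [TopologicalSpace M] [ChartedSpace (Euc (m + 1)) M]
  [IsManifold 𝓘(ℝ, Euc (m + 1)) ∞ M] [T2Space M] [CompactSpace M] [ConnectedSpace M]
  [MeasurableSpace M] [BorelSpace M] {g : Metric (Euc (m + 1)) M} {μ : Measure M} {D r : ℝ}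
  {Φ : M → Euc (m + 1) → ℝ}

theorem pair_hc_eq (h : Bl g D) (hμ : RV g μ) (hr : r ≤ D) (hΦ : TCont Φ) :
    TT g μ r Φ = ∫⁻ x, ∫⁻ y, pf g r Φ (x, y) ∂μ ∂μ :=
  lintegral_congr fun x => TI_eq h hμ hr hΦ x

theorem TT_flip (h : Bl g D) (hμ : RV g μ) (hr : r ≤ D) (hΦ : TCont Φ) :
    TT g μ r (fun x v => Φ (g.exp x v) (-vel (Euc (m + 1)) (g.geo x v) 1)) = TT g μ r Φ := by
  have := hμ.sfin
  have h1 : TCont fun x v => Φ (g.exp x v) (-vel (Euc (m + 1)) (g.geo x v) 1) := by
    have h2 := (hΦ.smul (-1)).flw g 1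
    simp only [neg_one_smul] at h2
    exact h2
  rw [pair_hc_eq h hμ hr h1, pair_hc_eq h hμ hr hΦ,
    lintegral_lintegral_swap (f := fun x y => pf g r Φ (x, y)) (measurable_pf h hr hΦ).aemeasurable]
  refine lintegral_congr fun x => lintegral_congr fun y => ?_
  simp only [pf, rdist_comm g y x]
  split_ifs with hxy
  · obtain ⟨h3, h4⟩ := lg_spec g x y
    have h5 := h.lg_flip (h4.trans_lt (lt_of_lt_of_le hxy hr))
    have h6 := jac_flip g (m := m) (by simp) x (lg g x y)
    rw [h3] at h5 h6
    rw [h3, h5, h6]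
  · rfl

theorem TT_jac (h : Bl g D) (hμ : RV g μ) : TT g μ D (jac g) ≤ μ univ * μ univ := by
  rw [← lintegral_const]
  refine lintegral_mono fun x => ?_
  have h1 := exp_cv h hμ le_rfl x (F := fun _ => 1) measurable_const
  simp only [one_mul, setLIntegral_const] at h1
  exact h1.symm.trans_le (measure_mono (subset_univ _))

theorem TT_pos (h : Bl g D) (hμ : RV g μ) (hΦ : TCont Φ) {x : M} {v : Euc (m + 1)}
    (hv : nrm g x v < D) (h0 : 0 < Φ x v) : 0 < TT g μ D Φ := by
  have := hμ.sfin
  have := hμ.openPos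
  have := pair_hb_sc m M
  have hm := measurable_pf h le_rfl hΦ
  rw [pair_hc_eq h hμ le_rfl hΦ, ← lintegral_prod _ hm.aemeasurable, lintegral_pos_iff_support hm]
  have hd : rdist g x (g.exp x v) < D := (rdist_exp_le g x v).trans_lt hv
  have h1 := (pair_hb_cont h hΦ (z := (0, x, g.exp x v)) hd).comp
    (f := fun w : M × M => ((0 : ℝ), w)) (Continuous.prodMk_right (0 : ℝ)).continuousAt
  have h2 : 0 < ENNReal.ofReal (flw g Φ 0 x (lg g x (g.exp x v)) / jac g x (lg g x (g.exp x v))) := by
    rw [pair_hb_zero, h.lg_exp hv]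
    exact ENNReal.ofReal_pos.2 (div_pos h0 (h.jac_pos hv))
  refine Measure.measure_pos_of_mem_nhds _ (x := (x, g.exp x v)) ?_
  filter_upwards [h1.eventually (lt_mem_nhds h2),
    (continuous_rdist g).continuousAt.eventually (gt_mem_nhds hd)] with w hw1 hw2
  rw [Function.mem_support, pf, if_pos hw2]
  simpa only [Function.comp_apply, pair_hb_zero] using hw1.ne'

end Vale.Agent.P231
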