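import Vale.Agent.P231.V.Meas
import Vale.Agent.P231.G.Jac

/-!
# Integration over the ball bundle, written on pairs of points  (TASK)

`dens_exp`: `jac_basis` with `(EuclideanSpace.basisFun _ ℝ).toBasis`, `gram_pos`, `Real.sqrt_div`; `pull g (exp x) v a b = ip (exp v) (dexp a) (dexp b)` by definition.
`exp_cv`: `cv` with `φ = exp x`, `S = {nrm < r}` (open), injective by `lg_exp`, `C¹` by `contDiffAt_exp`, `continuous_exp` (`contMDiffAt_iff`; `extChartAt` for the model `𝓘(ℝ, E)` is `chartAt`), image `{rdist < r}` by `lg_spec`, `rdist_exp`.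
`measurable_pf`: the function is continuous on the open set `{rdist < r}` (`tc_lg`, `TCont.tendsto`, `tcont_jac`, `jac_pos`) and `0` outside (`ContinuousOn.measurable_piecewise`); `M` is second countable so the product has the Borel structure.
The version with a time parameter uses `tc_flow`.  `TI_eq`: `exp_cv` with `F y = pf (x, y)`, `lg_exp`, `ofReal_mul`.  `TT_flip`: `TI_eq`, `lintegral_lintegral_swap`, `rdist_comm`, and
`pf (flip Φ) (x, y) = pf Φ (y, x)` (`lg_flip`, `jac_flip`, `lg_spec`); `flip Φ` is `TCont` (`tc_flow` with `t = 1`, `TC.smul`).  `TT_pos`: `lintegral_prod`, `IsOpenPosMeasure` of the product, `lintegral_pos_iff_support`.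
This file holds one portion of the plan above.  Prefix helper names by `pair_ha_`.
-/

namespace Vale.Agent.P231

open scoped ContDiff Manifold ENNReal Topology
open Vale.Agent.P255 Vale.Agent.P234 Vale.Agent.P219.St Set Filter MeasureTheory

variable {m : ℕ} {M : Type*} [TopologicalSpace M] [ChartedSpace (Euc (m + 1)) M]
  [IsManifold 𝓘(ℝ, Euc (m + 1)) ∞ M] [T2Space M] [CompactSpace M] [ConnectedSpace M]
  [MeasurableSpace M] [BorelSpace M] {g : Metric (Euc (m + 1)) M} {μ : Measure M} {D r : ℝ}
  {Φ : M → Euc (m + 1) → ℝ}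

/-- The volume element of the tangent space. -/
noncomputable def wt (g : Metric (Euc (m + 1)) M) (x : M) : ℝ :=
  √(Matrix.of fun i j : Fin (m + 1) =>
    g.ip x (EuclideanSpace.single i 1) (EuclideanSpace.single j 1)).det

/-- The integral over the tangent ball of radius `r`. -/
noncomputable def TI (g : Metric (Euc (m + 1)) M) (r : ℝ) (Φ : M → Euc (m + 1) → ℝ) (x : M) :
    ℝ≥0∞ := ∫⁻ v in {v | nrm g x v < r}, ENNReal.ofReal (Φ x v * wt g x)

/-- The integral over the ball bundle. -/
noncomputable def TT (g : Metric (Euc (m + 1)) M) (μ : Measure M) (r : ℝ)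
    (Φ : M → Euc (m + 1) → ℝ) : ℝ≥0∞ := ∫⁻ x, TI g r Φ x ∂μ

open Classical in
/-- The density on pairs of points. -/
noncomputable def pf (g : Metric (Euc (m + 1)) M) (r : ℝ) (Φ : M → Euc (m + 1) → ℝ) (w : M × M) :
    ℝ≥0∞ := if rdist g w.1 w.2 < r then
      ENNReal.ofReal (Φ w.1 (lg g w.1 w.2) / jac g w.1 (lg g w.1 w.2)) else 0

theorem pair_ha_gram (g : Metric (Euc (m + 1)) M) (x : M) : 0 < (Matrix.of fun i j : Fin (m + 1) =>
    g.ip x (EuclideanSpace.single i 1) (EuclideanSpace.single j 1)).det := by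
  have h := gram_pos g x (EuclideanSpace.basisFun (Fin (m + 1)) ℝ).toBasis.linearIndependent
  simpa using h

theorem wt_pos (g : Metric (Euc (m + 1)) M) (x : M) : 0 < wt g x :=
  Real.sqrt_pos.2 (pair_ha_gram g x)

theorem dens_exp (g : Metric (Euc (m + 1)) M) (x : M) (v : Euc (m + 1)) :
    dens g (g.exp x) v = jac g x v * wt g x := by
  rw [jac_basis g x v (EuclideanSpace.basisFun (Fin (m + 1)) ℝ).toBasis]
  simp only [OrthonormalBasis.coe_toBasis, EuclideanSpace.basisFun_apply]
  rw [Real.sqrt_div' _ (pair_ha_gram g x).le]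
  exact (div_mul_cancel₀ _ (wt_pos g x).ne').symm

theorem pair_ha_cont (g : Metric (Euc (m + 1)) M) (x : M) : Continuous (nrm g x) :=
  continuous_iff_continuousAt.2 fun _ => TC.nrm g (TC.const_base.2 tendsto_id)

theorem pair_ha_open (g : Metric (Euc (m + 1)) M) (x : M) (r : ℝ) :
    IsOpen {v | nrm g x v < r} := isOpen_lt (pair_ha_cont g x) continuous_const

theorem exp_cv (h : Bl g D) (hμ : RV g μ) (hr : r ≤ D) (x : M) {F : M → ℝ≥0∞} (hF : Measurable F) :
    ∫⁻ y in {y | rdist g x y < r}, F y ∂μ =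
      ∫⁻ v in {v | nrm g x v < r}, F (g.exp x v) * ENNReal.ofReal (jac g x v * wt g x) := by
  have hp : Param (Euc (m + 1)) (g.exp x) {v | nrm g x v < r} univ := by
    refine ⟨fun v _ => ?_, fun v hv w hw e => ?_, mapsTo_univ _ _⟩
    · rw [contMDiffAt_iff_target, contMDiffAt_iff_contDiffAt]
      exact ⟨(g.continuous_exp x).continuousAt,
        g.contDiffAt_exp x v (chart_mem_atlas _ _) (mem_chart_source _ _)⟩
    · rw [← h.lg_exp (lt_of_lt_of_le hv hr), e, h.lg_exp (lt_of_lt_of_le hw hr)]
  have him : g.exp x '' {v | nrm g x v < r} = {y | rdist g x y < r} := by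
    ext y
    constructor
    · rintro ⟨v, hv, rfl⟩
      exact (rdist_exp_le g x v).trans_lt hv
    · intro hy
      exact ⟨lg g x y, (lg_spec g x y).2.trans_lt hy, (lg_spec g x y).1⟩
  rw [← him, hμ.cv _ _ (pair_ha_open g x r).measurableSet hp F hF]
  simp only [dens_exp]

end Vale.Agent.P231
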