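import Vale.Agent.P231.V.PairA

/-!
# Integration over the ball bundle, written on pairs of points  (TASK)

`dens_exp`: `jac_basis` with `(EuclideanSpace.basisFun _ ℝ).toBasis`, `gram_pos`, `Real.sqrt_div`; `pull g (exp x) v a b = ip (exp v) (dexp a) (dexp b)` by definition.
`exp_cv`: `cv` with `φ = exp x`, `S = {nrm < r}` (open), injective by `lg_exp`, `C¹` by `contDiffAt_exp`, `continuous_exp` (`contMDiffAt_iff`; `extChartAt` for the model `𝓘(ℝ, E)` is `chartAt`), image `{rdist < r}` by `lg_spec`, `rdist_exp`.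
`measurable_pf`: the function is continuous on the open set `{rdist < r}` (`tc_lg`, `TCont.tendsto`, `tcont_jac`, `jac_pos`) and `0` outside (`ContinuousOn.measurable_piecewise`); `M` is second countable so the product has the Borel structure.
The version with a time parameter uses `tc_flow`.  `TI_eq`: `exp_cv` with `F y = pf (x, y)`, `lg_exp`, `ofReal_mul`.  `TT_flip`: `TI_eq`, `lintegral_lintegral_swap`, `rdist_comm`, and
`pf (flip Φ) (x, y) = pf Φ (y, x)` (`lg_flip`, `jac_flip`, `lg_spec`); `flip Φ` is `TCont` (`tc_flow` with `t = 1`, `TC.smul`).  `TT_pos`: `lintegral_prod`, `IsOpenPosMeasure` of the product, `lintegral_pos_iff_support`.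
This file holds one portion of the plan above.  Prefix helper names by `pair_hb_`.
-/

namespace Vale.Agent.P231

open scoped ContDiff Manifold ENNReal Topology
open Vale.Agent.P255 Vale.Agent.P234 Vale.Agent.P219.St Set Filter MeasureTheory

variable {m : ℕ} {M : Type*} [TopologicalSpace M] [ChartedSpace (Euc (m + 1)) M]
  [IsManifold 𝓘(ℝ, Euc (m + 1)) ∞ M] [T2Space M] [CompactSpace M] [ConnectedSpace M]
  [MeasurableSpace M] [BorelSpace M] {g : Metric (Euc (m + 1)) M} {μ : Measure M} {D r : ℝ}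
  {Φ : M → Euc (m + 1) → ℝ}

theorem pair_hb_sc (m : ℕ) (M : Type*) [TopologicalSpace M] [ChartedSpace (Euc (m + 1)) M]
    [CompactSpace M] : SecondCountableTopology M :=
  ChartedSpace.secondCountable_of_sigmaCompact (Euc (m + 1)) M

theorem pair_hb_cont (h : Bl g D) (hΦ : TCont Φ) {z : ℝ × M × M} (hz : rdist g z.2.1 z.2.2 < D) :
    ContinuousAt (fun z : ℝ × M × M => ENNReal.ofReal
      (flw g Φ z.1 z.2.1 (lg g z.2.1 z.2.2) / jac g z.2.1 (lg g z.2.1 z.2.2))) z := by
  have h1 := h.tc_lg (l := 𝓝 z) (x := fun z : ℝ × M × M => z.2.1) (y := fun z => z.2.2)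
    continuous_snd.fst.continuousAt continuous_snd.snd.continuousAt hz
  exact ENNReal.tendsto_ofReal ((hΦ.tendsto (tc_flow g h1 continuous_fst.continuousAt)).div
    ((tcont_jac g).tendsto h1) (h.jac_pos ((lg_spec g _ _).2.trans_lt hz)).ne')

theorem measurable_pf_flw (h : Bl g D) (hr : r ≤ D) (hΦ : TCont Φ) :
    Measurable fun z : ℝ × M × M => pf g r (flw g Φ z.1) z.2 := by
  classical
  have := pair_hb_sc m M
  have ho : IsOpen {z : ℝ × M × M | rdist g z.2.1 z.2.2 < r} :=
    isOpen_lt ((continuous_rdist g).comp continuous_snd) continuous_const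
  have h1 := ContinuousOn.measurable_piecewise (s := {z : ℝ × M × M | rdist g z.2.1 z.2.2 < r})
    (fun z hz => (pair_hb_cont h hΦ (lt_of_lt_of_le hz hr)).continuousWithinAt)
    (continuousOn_const (c := (0 : ℝ≥0∞))) ho.measurableSet
  have h2 : (fun z : ℝ × M × M => pf g r (flw g Φ z.1) z.2) =
      {z : ℝ × M × M | rdist g z.2.1 z.2.2 < r}.piecewise (fun z => ENNReal.ofReal
        (flw g Φ z.1 z.2.1 (lg g z.2.1 z.2.2) / jac g z.2.1 (lg g z.2.1 z.2.2))) fun _ => 0 := by
    funext z
    simp only [piecewise, pf, mem_setOf_eq]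
  rw [h2]
  exact h1

theorem pair_hb_zero (g : Metric (Euc (m + 1)) M) (Φ : M → Euc (m + 1) → ℝ) : flw g Φ 0 = Φ := by
  funext x v
  rw [flw, vel_geo_zero, g.geo_zero]

theorem measurable_pf (h : Bl g D) (hr : r ≤ D) (hΦ : TCont Φ) : Measurable (pf g r Φ) := by
  have h1 := (measurable_pf_flw h hr hΦ).comp (measurable_prodMk_left (x := (0 : ℝ)))
  simpa only [Function.comp_def, pair_hb_zero] using h1

theorem TI_eq (h : Bl g D) (hμ : RV g μ) (hr : r ≤ D) (hΦ : TCont Φ) (x : M) :
    TI g r Φ x = ∫⁻ y, pf g r Φ (x, y) ∂μ := by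
  have hm : Measurable fun y => pf g r Φ (x, y) :=
    (measurable_pf h hr hΦ).comp measurable_prodMk_left
  have ho : IsOpen {y | rdist g x y < r} :=
    isOpen_lt ((continuous_rdist g).comp (Continuous.prodMk_right x)) continuous_const
  have h1 : ∫⁻ y, pf g r Φ (x, y) ∂μ = ∫⁻ y in {y | rdist g x y < r}, pf g r Φ (x, y) ∂μ := by
    refine (setLIntegral_eq_of_support_subset fun y hy => ?_).symm
    by_contra hn
    exact hy (if_neg hn)
  rw [h1, exp_cv h hμ hr x hm, TI]
  refine setLIntegral_congr_fun (pair_ha_open g x r).measurableSet fun v hv => ?_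
  have hv' : nrm g x v < D := lt_of_lt_of_le hv hr
  have hj := h.jac_pos hv'
  simp only [pf, h.lg_exp hv', if_pos ((rdist_exp_le g x v).trans_lt hv)]
  rw [← ENNReal.ofReal_mul' (mul_pos hj (wt_pos g x)).le]
  congr 1
  field_simp

end Vale.Agent.P231
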